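import Mathlib

namespace Vale.Agent.Lib.P199

open Polynomial

universe u v

section Indep

variable {E : Type u} {Δ : Type v} [Field E] [DivisionRing Δ] [Algebra E Δ]

theorem central_mem [Algebra.IsCentral E Δ] (z : Δ) (hz : ∀ x : Δ, z * x = x * z) :
    ∃ e : E, algebraMap E Δ e = z := by
  have h1 : z ∈ Subalgebra.center E Δ := by
    rw [Subalgebra.mem_center_iff]
    intro b
    exact (hz b).symm
  have h2 := Algebra.IsCentral.out h1
  rw [Algebra.mem_bot] at h2
  exact h2

theorem indep_basic [Algebra.IsCentral E Δ] {ι : Type*} (q : ι → Δ) (s : Finset ι) :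
    LinearIndepOn E q (s : Set ι) → ∀ p : ι → Δ,
      (∀ x : Δ, ∑ i ∈ s, p i * x * q i = 0) → ∀ i ∈ s, p i = 0 := by
  classical
  induction s using Finset.induction_on with
  | empty => intro _ p _ i hi; simp at hi
  | insert a t hat ih =>
    intro hq p hp
    have hqt : LinearIndepOn E q (t : Set ι) :=
      hq.mono (by rw [Finset.coe_insert]; exact Set.subset_insert _ _)
    by_cases hpa : p a = 0
    · have hp' : ∀ x : Δ, ∑ i ∈ t, p i * x * q i = 0 := by
        intro x
        have := hp x
        rwa [Finset.sum_insert hat, hpa, zero_mul, zero_mul, zero_add] at this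
      have h3 := ih hqt p hp'
      intro i hi
      rcases Finset.mem_insert.mp hi with rfl | hi
      · exact hpa
      · exact h3 i hi
    · exfalso
      have hp' : ∀ x : Δ, ∑ i ∈ insert a t, ((p a)⁻¹ * p i) * x * q i = 0 := by
        intro x
        have h4 := congrArg (fun y => (p a)⁻¹ * y) (hp x)
        simp only [Finset.mul_sum, mul_zero] at h4
        rw [← h4]
        apply Finset.sum_congr rfl
        intro i _
        simp only [mul_assoc]
      have hp'a : (p a)⁻¹ * p a = 1 := inv_mul_cancel₀ hpa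
      have hcomm : ∀ y : Δ, ∀ i ∈ t, ((p a)⁻¹ * p i) * y - y * ((p a)⁻¹ * p i) = 0 := by
        intro y
        apply ih hqt (fun i => ((p a)⁻¹ * p i) * y - y * ((p a)⁻¹ * p i))
        intro x
        have h1 := hp' (y * x)
        have h2 := congrArg (fun z => y * z) (hp' x)
        simp only [Finset.mul_sum, mul_zero] at h2
        rw [Finset.sum_insert hat] at h1 h2
        rw [hp'a] at h1 h2
        have e0 : ∑ i ∈ t, (((p a)⁻¹ * p i) * y - y * ((p a)⁻¹ * p i)) * x * q i
            = (∑ i ∈ t, ((p a)⁻¹ * p i) * (y * x) * q i)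
              - ∑ i ∈ t, y * (((p a)⁻¹ * p i) * x * q i) := by
          rw [← Finset.sum_sub_distrib]
          apply Finset.sum_congr rfl
          intro i _
          noncomm_ring
        have e1 : ∑ i ∈ t, ((p a)⁻¹ * p i) * (y * x) * q i = -(1 * (y * x) * q a) :=
          eq_neg_of_add_eq_zero_right h1
        have e2 : ∑ i ∈ t, y * (((p a)⁻¹ * p i) * x * q i) = -(y * (1 * x * q a)) :=
          eq_neg_of_add_eq_zero_right h2
        rw [e0, e1, e2]
        noncomm_ring
      have hcen : ∀ i ∈ t, ∃ e : E, algebraMap E Δ e = (p a)⁻¹ * p i := by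
        intro i hi
        apply central_mem
        intro x
        exact sub_eq_zero.mp (hcomm x i hi)
      choose! g hg using hcen
      have hrel := hp' 1
      rw [Finset.sum_insert hat, hp'a] at hrel
      simp only [mul_one, one_mul] at hrel
      have hlin : ∑ i ∈ insert a t, (fun i => if i = a then (1 : E) else g i) i • q i = 0 := by
        rw [Finset.sum_insert hat]
        simp only [if_true, one_smul]
        rw [← hrel]
        congr 1
        apply Finset.sum_congr rfl
        intro i hi
        have hia : i ≠ a := fun h => hat (h ▸ hi)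
        simp only [hia, if_false]
        rw [Algebra.smul_def, hg i hi]
      have h5 := linearIndepOn_finset_iff.mp hq _ hlin a (Finset.mem_insert_self a t)
      simp at h5

theorem indep_fiber [Algebra.IsCentral E Δ] {ι J : Type*} [DecidableEq J] (b : J → Δ)
    (t : Finset J) (hb : LinearIndepOn E b (t : Set J)) (s : Finset ι) (p : ι → Δ) (φ : ι → J)
    (hφ : ∀ i ∈ s, φ i ∈ t) (h : ∀ x : Δ, ∑ i ∈ s, p i * x * b (φ i) = 0) :
    ∀ j ∈ t, ∑ i ∈ s with φ i = j, p i = 0 := by
  apply indep_basic b t hb (fun j => ∑ i ∈ s with φ i = j, p i)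
  intro x
  rw [← h x, ← Finset.sum_fiberwise_of_maps_to hφ]
  apply Finset.sum_congr rfl
  intro j _
  rw [Finset.sum_mul, Finset.sum_mul]
  apply Finset.sum_congr rfl
  intro i hi
  rw [(Finset.mem_filter.mp hi).2]

theorem telescope (c c' x : Δ) (k : ℕ) :
    c' * (∑ i ∈ Finset.range k, c' ^ i * x * c ^ (k - 1 - i))
      - (∑ i ∈ Finset.range k, c' ^ i * x * c ^ (k - 1 - i)) * c = c' ^ k * x - x * c ^ k := by
  have h1 : c' * (∑ i ∈ Finset.range k, c' ^ i * x * c ^ (k - 1 - i))
      - (∑ i ∈ Finset.range k, c' ^ i * x * c ^ (k - 1 - i)) * c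
      = ∑ i ∈ Finset.range k, ((fun i => c' ^ i * x * c ^ (k - i)) (i + 1)
          - (fun i => c' ^ i * x * c ^ (k - i)) i) := by
    rw [Finset.mul_sum, Finset.sum_mul, ← Finset.sum_sub_distrib]
    apply Finset.sum_congr rfl
    intro i hi
    have hik : i < k := Finset.mem_range.mp hi
    have e1 : k - (i + 1) = k - 1 - i := by omega
    have e2 : k - i = (k - 1 - i) + 1 := by omega
    beta_reduce
    rw [e1, e2, pow_succ' c' i, pow_succ c (k - 1 - i)]
    simp only [mul_assoc]
  rw [h1, Finset.sum_range_sub (fun i => c' ^ i * x * c ^ (k - i))]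
  simp

theorem exists_conj [Algebra.IsCentral E Δ] (c c' : Δ) (h : E[X]) (hirr : Irreducible h)
    (hc : aeval c h = 0) (hc' : aeval c' h = 0) : ∃ u : Δ, u ≠ 0 ∧ c' * u = u * c := by
  classical
  have hh0 : h ≠ 0 := hirr.ne_zero
  have hmin : h * C h.leadingCoeff⁻¹ = minpoly E c := minpoly.eq_of_irreducible hirr hc
  have hlc : h.leadingCoeff⁻¹ ≠ 0 := inv_ne_zero (leadingCoeff_ne_zero.mpr hh0)
  have hd : (minpoly E c).natDegree = h.natDegree := by
    rw [← hmin, natDegree_mul_C hlc]
  have hdpos : 0 < h.natDegree := Irreducible.natDegree_pos hirr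
  set d := h.natDegree with hddef
  let a : ℕ → Δ := fun k => algebraMap E Δ (h.coeff k)
  let Q : Δ → Δ := fun x =>
    ∑ k ∈ Finset.range (d + 1), a k * ∑ i ∈ Finset.range k, c' ^ i * x * c ^ (k - 1 - i)
  have hA : ∀ x, c' * Q x - Q x * c = 0 := by
    intro x
    have e1 : c' * Q x - Q x * c = ∑ k ∈ Finset.range (d + 1), a k * (c' ^ k * x - x * c ^ k) := by
      simp only [Q]
      rw [Finset.mul_sum, Finset.sum_mul, ← Finset.sum_sub_distrib]
      apply Finset.sum_congr rfl
      intro k _
      rw [← telescope c c' x k, mul_sub]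
      have hak : ∀ y : Δ, c' * (a k * y) = a k * (c' * y) := by
        intro y
        rw [← mul_assoc, ← mul_assoc]
        congr 1
        exact (Algebra.commutes (h.coeff k) c').symm
      rw [hak, mul_assoc]
    rw [e1]
    have e2 : ∑ k ∈ Finset.range (d + 1), a k * (c' ^ k * x - x * c ^ k)
        = (aeval c' h) * x - x * (aeval c h) := by
      rw [aeval_eq_sum_range, aeval_eq_sum_range, Finset.sum_mul, Finset.mul_sum,
        ← Finset.sum_sub_distrib]
      apply Finset.sum_congr rfl
      intro k _
      simp only [a, Algebra.smul_def]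
      rw [mul_sub, mul_assoc]
      congr 1
      rw [← mul_assoc, ← mul_assoc]
      congr 1
      exact Algebra.commutes (h.coeff k) x
    rw [e2, hc, hc', zero_mul, mul_zero, sub_zero]
  have hB : ∃ x, Q x ≠ 0 := by
    by_contra hcon
    push Not at hcon
    have hb : LinearIndepOn E (fun j : ℕ => c ^ j) ((Finset.range d : Finset ℕ) : Set ℕ) := by
      rw [linearIndepOn_finset_iff]
      intro g hg j hj
      have hli := linearIndependent_pow (K := E) c
      rw [Fintype.linearIndependent_iff] at hli
      have hj' : j < (minpoly E c).natDegree := by rw [hd]; exact Finset.mem_range.mp hj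
      have := hli (fun i => g i) (by
        rw [← hg, ← hd, Finset.sum_range]) ⟨j, hj'⟩
      exact this
    let s : Finset (Σ _ : ℕ, ℕ) := (Finset.range (d + 1)).sigma (fun k => Finset.range k)
    have hsum : ∀ x : Δ, ∑ y ∈ s, (a y.1 * c' ^ y.2) * x * c ^ (y.1 - 1 - y.2) = 0 := by
      intro x
      rw [Finset.sum_sigma]
      have := hcon x
      simp only [Q] at this
      rw [← this]
      apply Finset.sum_congr rfl
      intro k _
      rw [Finset.mul_sum]
      apply Finset.sum_congr rfl
      intro i _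
      simp only [mul_assoc]
    have hφ : ∀ y ∈ s, y.1 - 1 - y.2 ∈ Finset.range d := by
      intro y hy
      rw [Finset.mem_sigma] at hy
      have h1 := Finset.mem_range.mp hy.1
      have h2 := Finset.mem_range.mp hy.2
      rw [Finset.mem_range]
      omega
    have key := indep_fiber (fun j : ℕ => c ^ j) (Finset.range d) hb s
      (fun y => a y.1 * c' ^ y.2) (fun y => y.1 - 1 - y.2) hφ hsum (d - 1)
      (Finset.mem_range.mpr (by omega))
    have hsingle : ∑ y ∈ s with y.1 - 1 - y.2 = d - 1, a y.1 * c' ^ y.2 = a d := by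
      rw [Finset.sum_eq_single (⟨d, 0⟩ : Σ _ : ℕ, ℕ)]
      · simp
      · intro y hy hne
        exfalso
        rw [Finset.mem_filter, Finset.mem_sigma] at hy
        obtain ⟨⟨h1, h2⟩, h3⟩ := hy
        have h1' := Finset.mem_range.mp h1
        have h2' := Finset.mem_range.mp h2
        apply hne
        obtain ⟨k, i⟩ := y
        simp only at h1' h2' h3
        have hk : k = d := by omega
        have hi : i = 0 := by omega
        subst hk; subst hi; rfl
      · intro hnot
        exfalso
        apply hnot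
        rw [Finset.mem_filter, Finset.mem_sigma]
        refine ⟨⟨Finset.mem_range.mpr (Nat.lt_succ_self d), Finset.mem_range.mpr hdpos⟩, ?_⟩
        simp
    rw [hsingle] at key
    have : h.coeff d = 0 := by
      have h0 : algebraMap E Δ (h.coeff d) = algebraMap E Δ 0 := by rw [map_zero]; exact key
      exact (algebraMap E Δ).injective h0
    rw [hddef, coeff_natDegree] at this
    exact hh0 (leadingCoeff_eq_zero.mp this)
  obtain ⟨x, hx⟩ := hB
  exact ⟨Q x, hx, sub_eq_zero.mp (hA x)⟩

end Indep

section Key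

variable {E : Type u} {Δ : Type v} [Field E] [DivisionRing Δ] [Algebra E Δ]

theorem fd_adjoin_pair (c u c' : Δ) (hc : IsIntegral E c) (hu : IsIntegral E u)
    (hc' : c' ∈ Algebra.adjoin E {c}) (hrel : c' * u = u * c) :
    FiniteDimensional E (Algebra.adjoin E ({c, u} : Set Δ)) := by
  let S₁ : Submodule E Δ := Subalgebra.toSubmodule (Algebra.adjoin E {c})
  let S₂ : Submodule E Δ := Subalgebra.toSubmodule (Algebra.adjoin E {u})
  have hfg : (S₁ * S₂).FG := Submodule.FG.mul hc.fg_adjoin_singleton hu.fg_adjoin_singleton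
  have hsw : ∀ s₁ ∈ Algebra.adjoin E {c}, ∃ s₁' ∈ Algebra.adjoin E {c}, u * s₁ = s₁' * u := by
    intro s₁ hs₁
    induction hs₁ using Algebra.adjoin_induction with
    | mem x hx =>
      rw [Set.mem_singleton_iff] at hx
      subst hx
      exact ⟨c', hc', hrel.symm⟩
    | algebraMap r =>
      exact ⟨algebraMap E Δ r, Subalgebra.algebraMap_mem _ r, (Algebra.commutes r u).symm⟩
    | add x y _ _ hx hy =>
      obtain ⟨x', hx', ex⟩ := hx
      obtain ⟨y', hy', ey⟩ := hy
      exact ⟨x' + y', Subalgebra.add_mem _ hx' hy', by rw [mul_add, add_mul, ex, ey]⟩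
    | mul x y _ _ hx hy =>
      obtain ⟨x', hx', ex⟩ := hx
      obtain ⟨y', hy', ey⟩ := hy
      exact ⟨x' * y', Subalgebra.mul_mem _ hx' hy',
        by rw [← mul_assoc, ex, mul_assoc, ey, mul_assoc]⟩
  let N : Subalgebra E Δ :=
    { carrier := {x | ∀ y ∈ S₁ * S₂, x * y ∈ S₁ * S₂}
      mul_mem' := fun {a b} ha hb y hy => by rw [mul_assoc]; exact ha _ (hb y hy)
      one_mem' := fun y hy => by rwa [one_mul]
      add_mem' := fun {a b} ha hb y hy => by
        rw [add_mul]; exact Submodule.add_mem _ (ha y hy) (hb y hy)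
      zero_mem' := fun y hy => by rw [zero_mul]; exact Submodule.zero_mem _
      algebraMap_mem' := fun r y hy => by
        rw [← Algebra.smul_def]; exact Submodule.smul_mem _ r hy }
  have hcN : c ∈ N := by
    intro y hy
    refine Submodule.mul_induction_on hy ?_ ?_
    · intro m hm n hn
      rw [← mul_assoc]
      exact Submodule.mul_mem_mul
        (Subalgebra.mul_mem _ (Algebra.self_mem_adjoin_singleton E c) hm) hn
    · intro x y hx hy
      rw [mul_add]; exact Submodule.add_mem _ hx hy
  have huN : u ∈ N := by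
    intro y hy
    refine Submodule.mul_induction_on hy ?_ ?_
    · intro m hm n hn
      obtain ⟨m', hm', e⟩ := hsw m hm
      rw [← mul_assoc, e, mul_assoc]
      exact Submodule.mul_mem_mul hm'
        (Subalgebra.mul_mem _ (Algebra.self_mem_adjoin_singleton E u) hn)
    · intro x y hx hy
      rw [mul_add]; exact Submodule.add_mem _ hx hy
  have hle : Algebra.adjoin E ({c, u} : Set Δ) ≤ N := by
    apply Algebra.adjoin_le
    intro x hx
    rcases hx with rfl | hx
    · exact hcN
    · rw [Set.mem_singleton_iff] at hx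
      subst hx
      exact huN
  have h1 : (1 : Δ) ∈ S₁ * S₂ := by
    have : (1 : Δ) * 1 ∈ S₁ * S₂ :=
      Submodule.mul_mem_mul (Subalgebra.one_mem _) (Subalgebra.one_mem _)
    rwa [mul_one] at this
  have hle2 : Subalgebra.toSubmodule (Algebra.adjoin E ({c, u} : Set Δ)) ≤ S₁ * S₂ := by
    intro x hx
    have := hle hx 1 h1
    rwa [mul_one] at this
  have : Module.Finite E (S₁ * S₂ : Submodule E Δ) := Module.Finite.iff_fg.mpr hfg
  have h2 : FiniteDimensional E (Subalgebra.toSubmodule (Algebra.adjoin E ({c, u} : Set Δ))) :=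
    Submodule.finiteDimensional_of_le hle2
  exact h2

theorem key_noncomm [Algebra.IsCentral E Δ] (c : Δ) (h q : E[X]) (hirr : Irreducible h)
    (hroot : aeval c h = 0) (hdvd : h ∣ h.comp q) (hne : ¬ h ∣ q - X)
    (halg : ∀ u : Δ, IsAlgebraic E u) :
    ∃ B : Subalgebra E Δ, FiniteDimensional E B ∧ ∃ x y : B, x * y ≠ y * x := by
  have hc'root : aeval (aeval c q) h = 0 := by
    rw [← aeval_comp]
    obtain ⟨g, hg⟩ := hdvd
    rw [hg, map_mul, hroot, zero_mul]
  have hc'ne : aeval c q ≠ c := by
    intro heq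
    apply hne
    have h0 : aeval c (q - X) = 0 := by
      rw [map_sub, aeval_X]; exact sub_eq_zero.mpr heq
    have h1 := minpoly.dvd E c h0
    have hmin := minpoly.eq_of_irreducible hirr hroot
    exact dvd_trans (Dvd.intro _ hmin) h1
  obtain ⟨u, hu0, hu⟩ := exists_conj c (aeval c q) h hirr hroot hc'root
  refine ⟨Algebra.adjoin E {c, u},
    fd_adjoin_pair c u (aeval c q) (halg c).isIntegral (halg u).isIntegral
      (aeval_mem_adjoin_singleton E c) hu,
    ⟨c, Algebra.subset_adjoin (by simp)⟩, ⟨u, Algebra.subset_adjoin (by simp)⟩, ?_⟩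
  intro hcomm
  have h1 : c * u = u * c := congrArg Subtype.val hcomm
  have h2 : (aeval c q - c) * u = 0 := by rw [sub_mul, hu, h1, sub_self]
  rcases mul_eq_zero.mp h2 with h3 | h3
  · exact hc'ne (sub_eq_zero.mp h3)
  · exact hu0 h3

end Key

end Vale.Agent.Lib.P199
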