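import Mathlib
import Vale.Agent.Lib.P199.Basic

namespace Vale.Agent.Lib.P199

open TensorProduct

universe u

noncomputable def tbasis (F D B : Type u) [Field F] [DivisionRing D] [Algebra F D] [Field B]
    [Algebra F B] [FiniteDimensional F B] :
    Module.Basis (Fin (Module.finrank F B)) D (D ⊗[F] B) :=
  Algebra.TensorProduct.basis D (Module.finBasis F B)

section Tensor

variable {F D B : Type u} [Field F] [DivisionRing D] [Algebra F D] [Field B] [Algebra F B]
  [FiniteDimensional F B]

theorem smul_eq_tmul_mul (d : D) (x : D ⊗[F] B) : d • x = (d ⊗ₜ[F] (1 : B)) * x := by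
  induction x using TensorProduct.induction_on with
  | zero => simp
  | tmul a b => rw [smul_tmul', Algebra.TensorProduct.tmul_mul_tmul, one_mul, smul_eq_mul]
  | add x y hx hy => rw [smul_add, mul_add, hx, hy]

theorem repr_mul_tmul (x : D ⊗[F] B) (d : D) (i : Fin (Module.finrank F B)) :
    (tbasis F D B).repr (x * (d ⊗ₜ[F] (1 : B))) i = (tbasis F D B).repr x i * d := by
  induction x using TensorProduct.induction_on with
  | zero => simp
  | tmul a b =>
    rw [Algebra.TensorProduct.tmul_mul_tmul, mul_one]
    unfold tbasis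
    rw [Algebra.TensorProduct.basis_repr_tmul, Algebra.TensorProduct.basis_repr_tmul]
    simp only [Finsupp.smul_apply, Finsupp.mapRange_apply, smul_eq_mul]
    rw [mul_assoc, mul_assoc]
    congr 1
    exact (Algebra.commutes _ d).symm
  | add x y hx hy =>
    rw [add_mul, map_add, map_add, Finsupp.add_apply, Finsupp.add_apply, hx, hy, add_mul]

theorem eq_tmul_of_repr_central (x : D ⊗[F] B) (g : Fin (Module.finrank F B) → F)
    (hg : ∀ i, (tbasis F D B).repr x i = algebraMap F D (g i)) :
    x = (1 : D) ⊗ₜ[F] (∑ i, g i • Module.finBasis F B i) := by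
  conv_lhs => rw [← (tbasis F D B).sum_repr x]
  rw [TensorProduct.tmul_sum]
  apply Finset.sum_congr rfl
  intro i _
  rw [hg i]
  unfold tbasis
  rw [Algebra.TensorProduct.basis_apply, smul_tmul', smul_eq_mul, mul_one,
    Algebra.algebraMap_eq_smul_one, TensorProduct.smul_tmul]

theorem repr_central_of_comm [Algebra.IsCentral F D] (x : D ⊗[F] B)
    (hx : ∀ d : D, (d ⊗ₜ[F] (1 : B)) * x = x * (d ⊗ₜ[F] (1 : B))) :
    ∃ b : B, x = (1 : D) ⊗ₜ[F] b := by
  have h1 : ∀ i, ∀ d : D, (tbasis F D B).repr x i * d = d * (tbasis F D B).repr x i := by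
    intro i d
    rw [← repr_mul_tmul, ← hx d, ← smul_eq_tmul_mul, map_smul, Finsupp.smul_apply, smul_eq_mul]
  have h2 : ∀ i, ∃ e : F, algebraMap F D e = (tbasis F D B).repr x i :=
    fun i => central_mem _ (h1 i)
  choose g hg using h2
  exact ⟨_, eq_tmul_of_repr_central x g (fun i => (hg i).symm)⟩

theorem eq_zero_of_repr_zero (x : D ⊗[F] B) (h : ∀ i, (tbasis F D B).repr x i = 0) : x = 0 := by
  rw [← (tbasis F D B).sum_repr x]
  simp [h]

theorem tensor_nontrivial : Nontrivial (D ⊗[F] B) := by
  have hpos : 0 < Module.finrank F B := Module.finrank_pos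
  refine ⟨(tbasis F D B) ⟨0, hpos⟩, 0, ?_⟩
  exact (tbasis F D B).ne_zero _

theorem tensor_simple [Algebra.IsCentral F D] : IsSimpleRing (D ⊗[F] B) := by
  classical
  rw [isSimpleRing_iff_isTwoSided_imp]
  refine ⟨tensor_nontrivial, ?_⟩
  intro I hI
  by_cases hbot : I = ⊥
  · left; exact hbot
  · right
    obtain ⟨x, hxI, hx0⟩ := Submodule.exists_mem_ne_zero_of_ne_bot hbot
    have key : ∀ n : ℕ, ∀ x ∈ I, x ≠ 0 →
        (Finset.univ.filter (fun i => (tbasis F D B).repr x i ≠ 0)).card ≤ n →
        ∃ b : B, b ≠ 0 ∧ (1 : D) ⊗ₜ[F] b ∈ I := by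
      intro n
      induction n with
      | zero =>
        intro x _ hx0 hcard
        exfalso
        apply hx0
        apply eq_zero_of_repr_zero
        intro i
        by_contra hne
        have hmem : i ∈ Finset.univ.filter (fun i => (tbasis F D B).repr x i ≠ 0) := by
          simp [hne]
        have := Finset.card_pos.mpr ⟨i, hmem⟩
        omega
      | succ n ih =>
        intro x hxI hx0 hcard
        have hex : ∃ i₀, (tbasis F D B).repr x i₀ ≠ 0 := by
          by_contra hcon
          push Not at hcon
          exact hx0 (eq_zero_of_repr_zero x hcon)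
        obtain ⟨i₀, hi₀⟩ := hex
        have hx'I : ((tbasis F D B).repr x i₀)⁻¹ • x ∈ I := by
          rw [smul_eq_tmul_mul]; exact I.mul_mem_left _ hxI
        have hrepr : ∀ i, (tbasis F D B).repr (((tbasis F D B).repr x i₀)⁻¹ • x) i
            = ((tbasis F D B).repr x i₀)⁻¹ * (tbasis F D B).repr x i := by
          intro i; rw [map_smul, Finsupp.smul_apply, smul_eq_mul]
        have hi₀' : (tbasis F D B).repr (((tbasis F D B).repr x i₀)⁻¹ • x) i₀ = 1 := by
          rw [hrepr, inv_mul_cancel₀ hi₀]
        have hx'0 : ((tbasis F D B).repr x i₀)⁻¹ • x ≠ 0 := by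
          intro h
          have := congrArg (fun y => (tbasis F D B).repr y i₀) h
          simp only [hi₀', map_zero, Finsupp.zero_apply] at this
          exact one_ne_zero this
        generalize ((tbasis F D B).repr x i₀)⁻¹ • x = x' at hx'I hrepr hi₀' hx'0
        by_cases hall : ∀ d : D, d • x' - x' * (d ⊗ₜ[F] (1 : B)) = 0
        · have hcomm : ∀ d : D, (d ⊗ₜ[F] (1 : B)) * x' = x' * (d ⊗ₜ[F] (1 : B)) := by
            intro d; rw [← smul_eq_tmul_mul]; exact sub_eq_zero.mp (hall d)
          obtain ⟨b, hb⟩ := repr_central_of_comm x' hcomm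
          refine ⟨b, ?_, hb ▸ hx'I⟩
          intro hb0; apply hx'0; rw [hb, hb0, tmul_zero]
        · push Not at hall
          obtain ⟨d, hd⟩ := hall
          apply ih (d • x' - x' * (d ⊗ₜ[F] (1 : B))) _ hd
          · have hval : ∀ i, (tbasis F D B).repr (d • x' - x' * (d ⊗ₜ[F] (1 : B))) i
                = d * (tbasis F D B).repr x' i - (tbasis F D B).repr x' i * d := by
              intro i
              rw [map_sub, Finsupp.sub_apply, map_smul, Finsupp.smul_apply, smul_eq_mul,
                repr_mul_tmul]
            have hsub : Finset.univ.filter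
                (fun i => (tbasis F D B).repr (d • x' - x' * (d ⊗ₜ[F] (1 : B))) i ≠ 0)
                ⊆ (Finset.univ.filter (fun i => (tbasis F D B).repr x i ≠ 0)).erase i₀ := by
              intro i hi
              rw [Finset.mem_filter] at hi
              rw [Finset.mem_erase, Finset.mem_filter]
              refine ⟨?_, Finset.mem_univ _, ?_⟩
              · rintro rfl
                apply hi.2
                rw [hval, hi₀', mul_one, one_mul, sub_self]
              · intro h0
                apply hi.2
                rw [hval, hrepr, h0, mul_zero, mul_zero, zero_mul, sub_self]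
            have h1 := Finset.card_le_card hsub
            have h2 : ((Finset.univ.filter
                (fun i => (tbasis F D B).repr x i ≠ 0)).erase i₀).card
                = (Finset.univ.filter (fun i => (tbasis F D B).repr x i ≠ 0)).card - 1 :=
              Finset.card_erase_of_mem (by simp [hi₀])
            omega
          · exact I.sub_mem (by rw [smul_eq_tmul_mul]; exact I.mul_mem_left _ hx'I)
              (I.mul_mem_right _ hx'I)
    obtain ⟨b, hb0, hbI⟩ := key _ x hxI hx0 le_rfl
    apply Ideal.eq_top_of_isUnit_mem I hbI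
    rw [isUnit_iff_exists]
    refine ⟨(1 : D) ⊗ₜ[F] b⁻¹, ?_, ?_⟩
    · rw [Algebra.TensorProduct.tmul_mul_tmul, mul_one, mul_inv_cancel₀ hb0,
        Algebra.TensorProduct.one_def]
    · rw [Algebra.TensorProduct.tmul_mul_tmul, mul_one, inv_mul_cancel₀ hb0,
        Algebra.TensorProduct.one_def]

theorem tensor_finite : Module.Finite D (D ⊗[F] B) := Module.Finite.of_basis (tbasis F D B)

theorem tensor_artinian : IsArtinianRing (D ⊗[F] B) := by
  have : Module.Finite D (D ⊗[F] B) := tensor_finite
  have h : IsArtinian D (D ⊗[F] B) := inferInstance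
  exact isArtinian_of_tower D h

theorem tensor_finrank : Module.finrank D (D ⊗[F] B) = Module.finrank F B := by
  rw [Module.finrank_eq_card_basis (tbasis F D B), Fintype.card_fin]

end Tensor

end Vale.Agent.Lib.P199
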