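import Mathlib
import Vale.Agent.Lib.P199.Tensor

namespace Vale.Agent.Lib.P199

open TensorProduct Polynomial

universe u

theorem eig_indep {F K V ι : Type*} [Field F] [DivisionRing K] [Algebra F K] [AddCommGroup V]
    [Module K V] [Module F V] [IsScalarTower F K V] (ρ : V →ₗ[K] V) (lam : ι → F)
    (hlam : Function.Injective lam) (z : ι → V) (hz : ∀ i, z i ≠ 0)
    (hρ : ∀ i, ρ (z i) = lam i • z i) : LinearIndependent K z := by
  classical
  rw [linearIndependent_iff']
  intro s
  induction s using Finset.induction_on with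
  | empty => intro g _ i hi; simp at hi
  | insert j s hj ih =>
    intro g hg
    have hcomm : ∀ (c : F) (k : K) (v : V), k • (c • v) = c • (k • v) := by
      intro c k v
      rw [← algebraMap_smul K c v, ← algebraMap_smul K c (k • v), smul_smul, smul_smul,
        Algebra.commutes]
    have h1 : ∑ i ∈ insert j s, g i • (lam i • z i) = 0 := by
      have := congrArg ρ hg
      rw [map_sum, map_zero] at this
      rw [← this]
      refine Finset.sum_congr rfl fun i _ => ?_
      rw [map_smul, hρ]
    have h2 : ∑ i ∈ insert j s, lam j • (g i • z i) = 0 := by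
      rw [← Finset.smul_sum, hg, smul_zero]
    have h3 : ∑ i ∈ s, ((lam i - lam j) • g i) • z i = 0 := by
      have h4 : ∑ i ∈ insert j s, ((lam i - lam j) • g i) • z i = 0 := by
        rw [← sub_self (0 : V)]
        nth_rewrite 1 [← h1]
        nth_rewrite 1 [← h2]
        rw [← Finset.sum_sub_distrib]
        refine Finset.sum_congr rfl fun i _ => ?_
        rw [smul_assoc, sub_smul, hcomm]
      rw [Finset.sum_insert hj] at h4
      simpa using h4
    have h5 := ih _ h3
    have h6 : ∀ i ∈ s, g i = 0 := by
      intro i hi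
      have h7 := h5 i hi
      have hne : lam i - lam j ≠ 0 := by
        intro h
        exact hj ((hlam (sub_eq_zero.mp h)) ▸ hi)
      exact (smul_eq_zero_iff_right hne).mp h7
    intro i hi
    rw [Finset.mem_insert] at hi
    rcases hi with rfl | hi
    · rw [Finset.sum_insert hj] at hg
      have h8 : ∑ i ∈ s, g i • z i = 0 := by
        refine Finset.sum_eq_zero fun i hi => ?_
        rw [h6 i hi, zero_smul]
      rw [h8, add_zero] at hg
      exact (smul_eq_zero.mp hg).resolve_right (hz i)
    · exact h6 i hi

theorem unit_of_injective {F K E : Type u} [Field F] [DivisionRing K] [Algebra F K] [Field E]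
    [Algebra F E] [FiniteDimensional F E] (y : K ⊗[F] E)
    (hy : Function.Injective (LinearMap.mulRight K y)) : IsUnit y := by
  have hfin : Module.Finite K (K ⊗[F] E) := tensor_finite
  have hleft : ∀ y : K ⊗[F] E, Function.Injective (LinearMap.mulRight K y) →
      ∃ z, z * y = 1 := by
    intro y hy
    obtain ⟨z, hz⟩ := (LinearMap.injective_iff_surjective.mp hy) 1
    exact ⟨z, by simpa using hz⟩
  obtain ⟨z, hz⟩ := hleft y hy
  have hzinj : Function.Injective (LinearMap.mulRight K z) := by
    intro a b hab
    have h1 : a * z = b * z := by simpa using hab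
    calc a = a * z * y := by rw [mul_assoc, hz, mul_one]
      _ = b * z * y := by rw [h1]
      _ = b := by rw [mul_assoc, hz, mul_one]
  obtain ⟨w, hw⟩ := hleft z hzinj
  have hwy : w = y := by
    calc w = w * (z * y) := by rw [hz, mul_one]
      _ = y := by rw [← mul_assoc, hw, one_mul]
  rw [hwy] at hw
  exact ⟨⟨y, z, hw, hz⟩, rfl⟩

theorem bad_finite {F K E : Type u} [Field F] [DivisionRing K] [Algebra F K] [Field E]
    [Algebra F E] [FiniteDimensional F E] (x : K ⊗[F] E) :
    {l : F | ¬ IsUnit (x - algebraMap F (K ⊗[F] E) l)}.Finite := by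
  by_contra hinf
  have hfin : Module.Finite K (K ⊗[F] E) := tensor_finite
  have hInf : Infinite ↥{l : F | ¬ IsUnit (x - algebraMap F (K ⊗[F] E) l)} :=
    Set.infinite_coe_iff.mpr hinf
  have key : ∀ y : K ⊗[F] E, ¬ IsUnit y → ∃ z, z ≠ 0 ∧ z * y = 0 := by
    intro y hy
    have h1 : ¬ Function.Injective (LinearMap.mulRight K y) := fun h => hy (unit_of_injective y h)
    rw [injective_iff_map_eq_zero] at h1
    push Not at h1
    obtain ⟨z, hz, hz0⟩ := h1
    exact ⟨z, hz0, by simpa using hz⟩
  choose z hz0 hz using fun l : ↥{l : F | ¬ IsUnit (x - algebraMap F (K ⊗[F] E) l)} =>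
    key _ l.2
  have hind : LinearIndependent K z := by
    refine eig_indep (F := F) (LinearMap.mulRight K x)
      (fun l : ↥{l : F | ¬ IsUnit (x - algebraMap F (K ⊗[F] E) l)} => (l : F))
      Subtype.val_injective z hz0 ?_
    intro l
    have h1 := hz l
    rw [mul_sub, sub_eq_zero] at h1
    rw [LinearMap.mulRight_apply, h1, ← Algebra.commutes, ← Algebra.smul_def]
  have hF : Finite ↥{l : F | ¬ IsUnit (x - algebraMap F (K ⊗[F] E) l)} := hind.finite
  exact _root_.not_finite ↥{l : F | ¬ IsUnit (x - algebraMap F (K ⊗[F] E) l)}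

theorem amitsur_trick {F R : Type u} [Field F] [Ring R] [Algebra F R] [Uncountable F]
    (hrank : Module.rank F R ≤ Cardinal.aleph0) (x : R)
    (hbad : {l : F | ¬ IsUnit (x - algebraMap F R l)}.Countable) : IsAlgebraic F x := by
  classical
  by_contra htr
  have htr' : ∀ p : F[X], aeval x p = 0 → p = 0 := by
    intro p hp
    by_contra hp0
    exact htr ⟨p, hp0, hp⟩
  set G : Set F := {l : F | IsUnit (x - algebraMap F R l)} with hG
  let r : ↥G → R := fun l => Ring.inverse (x - algebraMap F R l)
  have hr : ∀ l : ↥G, (x - algebraMap F R l) * r l = 1 := fun l => Ring.mul_inverse_cancel _ l.2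
  have hind : LinearIndependent F r := by
    rw [linearIndependent_iff']
    intro s g hg i hi
    have hmul : ∀ l ∈ s, aeval x (∏ j ∈ s, (X - C (j : F))) * r l =
        aeval x (∏ j ∈ s.erase l, (X - C (j : F))) := by
      intro l hl
      rw [← Finset.prod_erase_mul s _ hl, map_mul, mul_assoc]
      have h1 : aeval x (X - C (l : F)) = x - algebraMap F R l := by simp
      rw [h1, hr, mul_one]
    have hQ : aeval x (∑ l ∈ s, C (g l) * ∏ j ∈ s.erase l, (X - C (j : F))) = 0 := by
      rw [map_sum]
      have h0 := congrArg (fun t => aeval x (∏ j ∈ s, (X - C (j : F))) * t) hg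
      simp only [mul_zero, Finset.mul_sum] at h0
      rw [← h0]
      refine Finset.sum_congr rfl fun l hl => ?_
      rw [map_mul, aeval_C, mul_smul_comm, hmul l hl, Algebra.smul_def]
    have hQ0 := htr' _ hQ
    have hev := congrArg (Polynomial.eval (i : F)) hQ0
    rw [Polynomial.eval_finsetSum, Polynomial.eval_zero, Finset.sum_eq_single i] at hev
    · rw [eval_mul, eval_C, eval_prod, mul_eq_zero] at hev
      rcases hev with h | h
      · exact h
      · exfalso
        rw [Finset.prod_eq_zero_iff] at h
        obtain ⟨j, hj, hj0⟩ := h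
        rw [eval_sub, eval_X, eval_C, sub_eq_zero] at hj0
        exact (Finset.ne_of_mem_erase hj) (Subtype.ext hj0.symm)
    · intro l hl hli
      rw [eval_mul, eval_prod]
      have h2 : ∏ j ∈ s.erase l, eval (i : F) (X - C (j : F)) = 0 := by
        refine Finset.prod_eq_zero (Finset.mem_erase.mpr ⟨?_, hi⟩) (by simp)
        exact fun h => hli h.symm
      rw [h2, mul_zero]
    · intro h
      exact absurd hi h
  have hcard := hind.cardinal_le_rank
  have hGc : Countable ↥G := Cardinal.mk_le_aleph0_iff.mp (hcard.trans hrank)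
  have hGc' : G.Countable := Set.countable_coe_iff.mp hGc
  have huniv : (Set.univ : Set F).Countable := by
    have h3 : (Set.univ : Set F) = {l : F | ¬ IsUnit (x - algebraMap F R l)} ∪ G := by
      ext l
      simp [hG, em']
    rw [h3]
    exact hbad.union hGc'
  exact not_countable (Set.countable_univ_iff.mp huniv)

theorem adjoin_rank_le {F D : Type u} [Field F] [Ring D] [Algebra F D] (T : Set D)
    (hT : T.Countable) : Module.rank F ↥(Algebra.adjoin F T) ≤ Cardinal.aleph0 := by
  rw [← Subalgebra.rank_toSubmodule, Algebra.adjoin_eq_span]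
  refine (rank_span_le _).trans ?_
  rw [Cardinal.mk_le_aleph0_iff, Set.countable_coe_iff]
  have h1 : (Submonoid.closure T : Set D) =
      Set.range (FreeMonoid.lift (Subtype.val : ↥T → D)) := by
    rw [Submonoid.closure_eq_mrange]
    rfl
  have h3 : Countable ↥T := Set.countable_coe_iff.mpr hT
  have h2 : Countable (FreeMonoid ↥T) := inferInstanceAs (Countable (List ↥T))
  rw [h1]
  exact Set.countable_range _

theorem tensor_algebraic {F D E : Type u} [Field F] [DivisionRing D] [Algebra F D]
    [Algebra.IsAlgebraic F D] [Uncountable F] [Field E] [Algebra F E] [FiniteDimensional F E]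
    (w : D ⊗[F] E) : IsAlgebraic F w := by
  classical
  set b := tbasis F D E with hb
  set S : Finset D := Finset.univ.image (fun i => b.repr w i) with hS
  set D₀ := Algebra.adjoin F (S : Set D) with hD₀
  have hmem : ∀ i, b.repr w i ∈ D₀ := fun i => Algebra.subset_adjoin (by simp [hS])
  have hunit : ∀ a : ↥D₀, IsUnit a ∨ a = 0 := by
    intro a
    by_cases ha : a = 0
    · exact Or.inr ha
    · left
      have hint : IsIntegral F a := by
        have h1 := (Algebra.IsAlgebraic.isAlgebraic (R := F) (a : D)).isIntegral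
        exact (isIntegral_algHom_iff D₀.val Subtype.val_injective).mp h1
      exact hint.isUnit ha
  let hdiv : DivisionRing ↥D₀ := DivisionRing.ofIsUnitOrEqZero hunit
  let w₀ : ↥D₀ ⊗[F] E := ∑ i, (⟨b.repr w i, hmem i⟩ : ↥D₀) ⊗ₜ[F] (Module.finBasis F E i)
  let ι : ↥D₀ ⊗[F] E →ₐ[F] D ⊗[F] E := Algebra.TensorProduct.map D₀.val (AlgHom.id F E)
  have hι : ι w₀ = w := by
    simp only [w₀, ι, map_sum, Algebra.TensorProduct.map_tmul]
    conv_rhs => rw [← b.sum_repr w]
    refine Finset.sum_congr rfl fun i _ => ?_
    simp [hb, tbasis, Algebra.TensorProduct.basis_apply, TensorProduct.smul_tmul']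
  have hrank : Module.rank F (↥D₀ ⊗[F] E) ≤ Cardinal.aleph0 := by
    rw [rank_tensorProduct']
    calc _ ≤ Cardinal.aleph0 * Cardinal.aleph0 :=
          mul_le_mul' (adjoin_rank_le _ S.countable_toSet) (Module.rank_lt_aleph0 F E).le
      _ = Cardinal.aleph0 := Cardinal.aleph0_mul_aleph0
  have h := amitsur_trick hrank w₀ (bad_finite w₀).countable
  rw [← hι]
  exact h.algHom ι

end Vale.Agent.Lib.P199
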