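import Mathlib
import Vale.Agent.Lib.P199.Basic

namespace Vale.Agent.Lib.P199

open Polynomial

universe u

theorem adjoinRoot_isSeparable {F : Type u} [Field F] (f : F[X]) [Fact (Irreducible f)]
    (hmon : f.Monic) (hsep : f.Separable) : Algebra.IsSeparable F (AdjoinRoot f) := by
  have hf0 : f ≠ 0 := hmon.ne_zero
  have hroot : IsSeparable F (AdjoinRoot.root f) := by
    unfold IsSeparable
    rw [AdjoinRoot.minpoly_root hf0, hmon.leadingCoeff, inv_one, C_1, mul_one]
    exact hsep
  constructor
  intro x
  have hx : x ∈ Algebra.adjoin F {AdjoinRoot.root f} := by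
    rw [AdjoinRoot.adjoinRoot_eq_top]; exact Algebra.mem_top
  have hle : Algebra.adjoin F {AdjoinRoot.root f}
      ≤ (separableClosure F (AdjoinRoot f)).toSubalgebra := by
    apply Algebra.adjoin_le
    intro y hy
    rw [Set.mem_singleton_iff] at hy
    subst hy
    exact mem_separableClosure_iff.mpr hroot
  exact mem_separableClosure_iff.mp (hle hx)

theorem comm_of_noncomm_fd {F : Type u} {D : Type u} [Field F] [DivisionRing D] [Algebra F D]
    (hBr : ∀ (B : Type u) [DivisionRing B] [Algebra F B] [FiniteDimensional F B],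
      ∀ x y : B, x * y = y * x)
    (B : Subalgebra F D) (hfd : FiniteDimensional F B) (x y : B) : x * y = y * x := by
  let _ : DivisionRing B := divisionRingOfFiniteDimensional F B
  exact hBr B x y

theorem cyclic_center (F D : Type u) [Field F] [DivisionRing D] [Algebra F D]
    [Algebra.IsCentral F D] [Algebra.IsAlgebraic F D]
    (hBr : ∀ (B : Type u) [DivisionRing B] [Algebra F B] [FiniteDimensional F B],
      ∀ x y : B, x * y = y * x)
    (hAut : ∀ (K : Type u) [Field K] [Algebra F K] [FiniteDimensional F K]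
      [Algebra.IsSeparable F K], 1 < Module.finrank F K →
      ∃ σ : K ≃ₐ[F] K, σ ≠ AlgEquiv.refl) :
    Function.Surjective (algebraMap F D) := by
  by_contra hsurj
  have hneq : (⊥ : Subalgebra F D) ≠ ⊤ := by
    intro hbt
    apply hsurj
    intro x
    have : x ∈ (⊥ : Subalgebra F D) := by rw [hbt]; exact Algebra.mem_top
    exact Algebra.mem_bot.mp this
  obtain ⟨a, ha, hasep⟩ := JacobsonNoether.exists_separable_and_not_isCentral' hneq
  have haint : IsIntegral F a := (Algebra.IsAlgebraic.isAlgebraic a).isIntegral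
  have hirr : Irreducible (minpoly F a) := minpoly.irreducible haint
  have hmon : (minpoly F a).Monic := minpoly.monic haint
  have hdeg : 1 < (minpoly F a).natDegree := by
    have h1 : (minpoly F a).natDegree ≠ 1 := by
      intro h
      apply ha
      rw [Algebra.mem_bot]
      exact minpoly.natDegree_eq_one_iff.mp h
    have h2 : 0 < (minpoly F a).natDegree := Irreducible.natDegree_pos hirr
    omega
  have : Fact (Irreducible (minpoly F a)) := ⟨hirr⟩
  have hf0 : minpoly F a ≠ 0 := hmon.ne_zero
  have : FiniteDimensional F (AdjoinRoot (minpoly F a)) :=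
    (AdjoinRoot.powerBasis hf0).finite
  have : Algebra.IsSeparable F (AdjoinRoot (minpoly F a)) :=
    adjoinRoot_isSeparable (minpoly F a) hmon hasep
  have hfr : 1 < Module.finrank F (AdjoinRoot (minpoly F a)) := by
    rw [(AdjoinRoot.powerBasis hf0).finrank, AdjoinRoot.powerBasis_dim]
    exact hdeg
  obtain ⟨σ, hσ⟩ := hAut (AdjoinRoot (minpoly F a)) hfr
  have hσroot : σ (AdjoinRoot.root (minpoly F a)) ≠ AdjoinRoot.root (minpoly F a) := by
    intro h
    apply hσ
    have : (σ : AdjoinRoot (minpoly F a) →ₐ[F] AdjoinRoot (minpoly F a))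
        = AlgHom.id F (AdjoinRoot (minpoly F a)) := by
      apply AdjoinRoot.algHom_ext
      simpa using h
    ext x
    have := congrArg (fun φ => φ x) this
    simpa using this
  obtain ⟨q, hq⟩ := AdjoinRoot.mk_surjective (σ (AdjoinRoot.root (minpoly F a)))
  have hdvd : minpoly F a ∣ (minpoly F a).comp q := by
    rw [← AdjoinRoot.mk_eq_zero, ← AdjoinRoot.aeval_eq, aeval_comp, AdjoinRoot.aeval_eq, hq]
    have h1 : aeval (σ (AdjoinRoot.root (minpoly F a))) (minpoly F a)
        = σ (aeval (AdjoinRoot.root (minpoly F a)) (minpoly F a)) :=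
      aeval_algHom_apply (σ : AdjoinRoot (minpoly F a) →ₐ[F] AdjoinRoot (minpoly F a)) _ _
    rw [h1, AdjoinRoot.aeval_eq, AdjoinRoot.mk_self, map_zero]
  have hne : ¬ minpoly F a ∣ q - X := by
    rw [← AdjoinRoot.mk_eq_zero, map_sub, hq, AdjoinRoot.mk_X]
    exact sub_ne_zero.mpr hσroot
  obtain ⟨B, hfd, x, y, hxy⟩ := key_noncomm a (minpoly F a) q hirr (minpoly.aeval F a) hdvd hne
    (fun u => Algebra.IsAlgebraic.isAlgebraic u)
  exact hxy (comm_of_noncomm_fd hBr B hfd x y)

end Vale.Agent.Lib.P199
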