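import Mathlib

namespace Vale.Agent.Lib.P199

open Polynomial IntermediateField

universe u

theorem galois_step {F : Type u} [Field F] (f : F[X]) (hf : Irreducible f) (hsep : f.Separable)
    (p : ℕ) (hp : p.Prime) (hpn : p ∣ f.natDegree) :
    ∃ (E : Type u) (_ : Field E) (_ : Algebra F E) (_ : FiniteDimensional F E)
      (_ : Algebra.IsSeparable F E),
      ¬ p ∣ Module.finrank F E ∧
      ∀ h : E[X], Irreducible h → h ∣ f.map (algebraMap F E) →
        (∃ k, h.natDegree = p ^ k) ∧ ∃ q : E[X], h ∣ h.comp q ∧ ¬ h ∣ (q - X) := by
  classical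
  have hpf : Fact p.Prime := ⟨hp⟩
  have hgal : IsGalois F f.SplittingField := IsGalois.of_separable_splitting_field hsep
  obtain ⟨P⟩ := (inferInstance : Nonempty (Sylow p Gal(f.SplittingField/F)))
  -- the fixed field
  refine ⟨fixedField (P : Subgroup Gal(f.SplittingField/F)), inferInstance, inferInstance,
    inferInstance, Algebra.isSeparable_tower_bot_of_isSeparable F
      (fixedField (P : Subgroup Gal(f.SplittingField/F))) f.SplittingField, ?_, ?_⟩
  all_goals
    have hEL : Module.finrank (fixedField (P : Subgroup Gal(f.SplittingField/F))) f.SplittingField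
        = Nat.card (P : Subgroup Gal(f.SplittingField/F)) :=
      finrank_fixedField_eq_card (P : Subgroup Gal(f.SplittingField/F))
    have hcardP : Nat.card (P : Subgroup Gal(f.SplittingField/F))
        = p ^ (Nat.card Gal(f.SplittingField/F)).factorization p := P.card_eq_multiplicity
    have hPpos : 0 < Nat.card (P : Subgroup Gal(f.SplittingField/F)) := by
      rw [hcardP]; exact pow_pos hp.pos _
    have htower : Module.finrank F (fixedField (P : Subgroup Gal(f.SplittingField/F)))
        * Module.finrank (fixedField (P : Subgroup Gal(f.SplittingField/F))) f.SplittingField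
        = Module.finrank F f.SplittingField := Module.finrank_mul_finrank _ _ _
    have hindex : Module.finrank F (fixedField (P : Subgroup Gal(f.SplittingField/F)))
        = (P : Subgroup Gal(f.SplittingField/F)).index := by
      have h1 := Subgroup.card_mul_index (P : Subgroup Gal(f.SplittingField/F))
      rw [IsGalois.card_aut_eq_finrank, ← htower, hEL, mul_comm] at h1
      exact (Nat.eq_of_mul_eq_mul_right hPpos h1).symm
    have hnd : ¬ p ∣ Module.finrank F (fixedField (P : Subgroup Gal(f.SplittingField/F))) := by
      rw [hindex]; exact P.not_dvd_index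
  · exact hnd
  · intro h hirr hdvd
    have hf0 : f ≠ 0 := hf.ne_zero
    have hh0 : h ≠ 0 := hirr.ne_zero
    -- h splits in the splitting field
    have hsplitf : (f.map (algebraMap F f.SplittingField)).Splits := SplittingField.splits f
    have hmapmap : (f.map (algebraMap F (fixedField (P : Subgroup Gal(f.SplittingField/F))))).map
        (algebraMap (fixedField (P : Subgroup Gal(f.SplittingField/F))) f.SplittingField)
        = f.map (algebraMap F f.SplittingField) := by
      rw [Polynomial.map_map, ← IsScalarTower.algebraMap_eq]
    have hsplith : (h.map (algebraMap (fixedField (P : Subgroup Gal(f.SplittingField/F)))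
        f.SplittingField)).Splits := by
      apply Splits.of_dvd hsplitf
      · exact (Polynomial.map_ne_zero_iff (algebraMap F f.SplittingField).injective).mpr hf0
      · rw [← hmapmap]
        exact Polynomial.map_dvd _ hdvd
    have hdegh : (h.map (algebraMap (fixedField (P : Subgroup Gal(f.SplittingField/F)))
        f.SplittingField)).degree ≠ 0 := by
      rw [degree_map]
      exact (Irreducible.degree_pos hirr).ne'
    obtain ⟨γ, hγ⟩ := hsplith.exists_eval_eq_zero hdegh
    have hγ' : aeval γ h = 0 := by
      rw [aeval_def, ← eval_map]; exact hγ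
    have hmin := minpoly.eq_of_irreducible hirr hγ'
    have hlc : h.leadingCoeff⁻¹ ≠ 0 := inv_ne_zero (leadingCoeff_ne_zero.mpr hh0)
    have hdegmin : (minpoly (fixedField (P : Subgroup Gal(f.SplittingField/F))) γ).natDegree
        = h.natDegree := by
      rw [← hmin, natDegree_mul_C hlc]
    have hγint : IsIntegral (fixedField (P : Subgroup Gal(f.SplittingField/F))) γ :=
      ⟨h * C h.leadingCoeff⁻¹, by
        rw [Monic, leadingCoeff_mul, leadingCoeff_C, mul_inv_cancel₀ (leadingCoeff_ne_zero.mpr hh0)],
        by rw [← aeval_def, map_mul, hγ', zero_mul]⟩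
    have hfrγ : Module.finrank (fixedField (P : Subgroup Gal(f.SplittingField/F)))
        ((fixedField (P : Subgroup Gal(f.SplittingField/F)))⟮γ⟯) = h.natDegree := by
      rw [adjoin.finrank hγint, hdegmin]
    -- degree is a power of p
    have hpow : ∃ k, h.natDegree = p ^ k := by
      have h1 : Module.finrank (fixedField (P : Subgroup Gal(f.SplittingField/F)))
            ((fixedField (P : Subgroup Gal(f.SplittingField/F)))⟮γ⟯)
          * Module.finrank ((fixedField (P : Subgroup Gal(f.SplittingField/F)))⟮γ⟯)
            f.SplittingField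
          = Module.finrank (fixedField (P : Subgroup Gal(f.SplittingField/F))) f.SplittingField :=
        Module.finrank_mul_finrank _ _ _
      rw [hfrγ, hEL, hcardP] at h1
      obtain ⟨k, _, hk⟩ := (Nat.dvd_prime_pow hp).mp (Dvd.intro _ h1)
      exact ⟨k, hk⟩
    refine ⟨hpow, ?_⟩
    -- the degree is not one
    have hdeg1 : h.natDegree ≠ 1 := by
      intro h1
      have hd1 : h.degree = 1 := by
        rw [degree_eq_natDegree hh0, h1]; rfl
      obtain ⟨r, hr⟩ := exists_root_of_degree_eq_one hd1
      have hr' : aeval r f = 0 := by
        obtain ⟨g, hg⟩ := hdvd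
        rw [aeval_def, ← eval_map, hg, eval_mul, hr.eq_zero, zero_mul]
      have hminr := minpoly.eq_of_irreducible hf hr'
      have hlcf : f.leadingCoeff⁻¹ ≠ 0 := inv_ne_zero (leadingCoeff_ne_zero.mpr hf0)
      have hdegr : (minpoly F r).natDegree = f.natDegree := by
        rw [← hminr, natDegree_mul_C hlcf]
      have hrint : IsIntegral F r := Algebra.IsIntegral.isIntegral r
      have hfr : Module.finrank F (F⟮r⟯) = f.natDegree := by
        rw [adjoin.finrank hrint, hdegr]
      have h2 : Module.finrank F (F⟮r⟯)
          * Module.finrank (F⟮r⟯) (fixedField (P : Subgroup Gal(f.SplittingField/F)))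
          = Module.finrank F (fixedField (P : Subgroup Gal(f.SplittingField/F))) :=
        Module.finrank_mul_finrank _ _ _
      apply hnd
      rw [← h2, hfr]
      exact dvd_mul_of_dvd_left hpn _
    have hγnot : γ ∉ (algebraMap (fixedField (P : Subgroup Gal(f.SplittingField/F)))
        f.SplittingField).range := by
      intro hmem
      apply hdeg1
      rw [← hdegmin]
      exact minpoly.natDegree_eq_one_iff.mpr hmem
    -- nilpotency
    have hgalE : IsGalois (fixedField (P : Subgroup Gal(f.SplittingField/F))) f.SplittingField :=
      IsGalois.tower_top_of_isGalois F _ _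
    have hcardGE : Nat.card Gal(f.SplittingField/(fixedField (P : Subgroup Gal(f.SplittingField/F))))
        = p ^ (Nat.card Gal(f.SplittingField/F)).factorization p := by
      rw [IsGalois.card_aut_eq_finrank, hEL, hcardP]
    have hpg : IsPGroup p Gal(f.SplittingField/(fixedField (P : Subgroup Gal(f.SplittingField/F)))) :=
      IsPGroup.of_card hcardGE
    have hnil : Group.IsNilpotent
        Gal(f.SplittingField/(fixedField (P : Subgroup Gal(f.SplittingField/F)))) :=
      hpg.isNilpotent
    have hnc : NormalizerCondition
        Gal(f.SplittingField/(fixedField (P : Subgroup Gal(f.SplittingField/F)))) :=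
      Group.normalizerCondition_of_isNilpotent
    -- the subgroup fixing γ
    have hHne : ((fixedField (P : Subgroup Gal(f.SplittingField/F)))⟮γ⟯).fixingSubgroup ≠ ⊤ := by
      intro htop
      apply hγnot
      rw [RingHom.mem_range]
      have h3 : ∀ σ : Gal(f.SplittingField/(fixedField (P : Subgroup Gal(f.SplittingField/F)))),
          σ γ = γ := by
        intro σ
        have hσ : σ ∈ ((fixedField (P : Subgroup Gal(f.SplittingField/F)))⟮γ⟯).fixingSubgroup := by
          rw [htop]; exact Subgroup.mem_top σ
        exact (IntermediateField.mem_fixingSubgroup_iff _ σ).mp hσ γ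
          (mem_adjoin_simple_self _ γ)
      exact (IsGalois.mem_range_algebraMap_iff_fixed γ).mpr h3
    obtain ⟨hle, hnle⟩ := hnc _ (lt_top_iff_ne_top.mpr hHne)
    obtain ⟨g, hgN, hgH⟩ := Set.not_subset.mp hnle
    -- g moves γ
    have hgγ : g γ ≠ γ := by
      intro hfix
      apply hgH
      rw [SetLike.mem_coe, IntermediateField.mem_fixingSubgroup_iff]
      have hle2 : (fixedField (P : Subgroup Gal(f.SplittingField/F)))⟮γ⟯
          ≤ fixedField (Subgroup.zpowers g) := by
        rw [adjoin_simple_le_iff, mem_fixedField_iff]
        intro σ hσ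
        obtain ⟨n, rfl⟩ := Subgroup.mem_zpowers_iff.mp hσ
        have hfix' : ∀ m : ℕ, (g ^ m) γ = γ := by
          intro m
          induction m with
          | zero => simp
          | succ m ih => rw [pow_succ, AlgEquiv.mul_apply, hfix, ih]
        have hfixinv : ∀ m : ℕ, (g ^ m)⁻¹ γ = γ := by
          intro m
          have h4 := hfix' m
          have h5 : (g ^ m)⁻¹ ((g ^ m) γ) = γ := by
            rw [← AlgEquiv.mul_apply, inv_mul_cancel]; rfl
          rw [h4] at h5
          exact h5
        rcases Int.eq_nat_or_neg n with ⟨m, rfl | rfl⟩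
        · rw [zpow_natCast]; exact hfix' m
        · rw [zpow_neg, zpow_natCast]; exact hfixinv m
      intro x hx
      exact (mem_fixedField_iff _ x).mp (hle2 hx) g (Subgroup.mem_zpowers g)
    -- g γ lies in the simple extension
    have hgγmem : g γ ∈ (fixedField (P : Subgroup Gal(f.SplittingField/F)))⟮γ⟯ := by
      rw [← IsGalois.fixedField_fixingSubgroup
        ((fixedField (P : Subgroup Gal(f.SplittingField/F)))⟮γ⟯), mem_fixedField_iff]
      intro σ hσ
      have h6 := (Subgroup.mem_normalizer_iff.mp hgN (g⁻¹ * σ * g)).mpr (by
        have : g * (g⁻¹ * σ * g) * g⁻¹ = σ := by group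
        rw [this]; exact hσ)
      have h7 := (IntermediateField.mem_fixingSubgroup_iff _ _).mp h6 γ (mem_adjoin_simple_self _ γ)
      rw [AlgEquiv.mul_apply, AlgEquiv.mul_apply] at h7
      have h8 := congrArg g h7
      rw [← AlgEquiv.mul_apply, mul_inv_cancel] at h8
      exact h8
    have hq : ∃ q : (fixedField (P : Subgroup Gal(f.SplittingField/F)))[X], aeval γ q = g γ := by
      have h9 : g γ ∈ ((fixedField (P : Subgroup Gal(f.SplittingField/F)))⟮γ⟯).toSubalgebra := hgγmem
      rw [adjoin_simple_toSubalgebra_of_isAlgebraic hγint.isAlgebraic,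
        Algebra.adjoin_singleton_eq_range_aeval] at h9
      exact h9
    obtain ⟨q, hq⟩ := hq
    refine ⟨q, ?_, ?_⟩
    · have h10 : aeval γ (h.comp q) = 0 := by
        rw [aeval_comp, hq]
        have h11 := aeval_algHom_apply
          (g : f.SplittingField →ₐ[fixedField (P : Subgroup Gal(f.SplittingField/F))]
            f.SplittingField) γ h
        rw [hγ', map_zero] at h11
        exact h11
      exact dvd_trans (Dvd.intro _ hmin) (minpoly.dvd _ γ h10)
    · intro hdq
      apply hgγ
      obtain ⟨w, hw⟩ := hdq
      have h12 : aeval γ (q - X) = 0 := by rw [hw, map_mul, hγ', zero_mul]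
      rw [map_sub, aeval_X, hq] at h12
      exact sub_eq_zero.mp h12

end Vale.Agent.Lib.P199
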