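import Mathlib
import Vale.Agent.Lib.P199.Tensor

namespace Vale.Agent.Lib.P199

open TensorProduct Polynomial

universe u

section Eigen

variable {E Δ : Type u} [Field E] [DivisionRing Δ] [Algebra E Δ] [Algebra.IsCentral E Δ]

theorem tower_tensor {B : Type u} [Field B] [Algebra E B] {V : Type u} [AddCommGroup V]
    [Module Δ V] [Module E V] [IsScalarTower E Δ V] [Module B V] [IsScalarTower E B V]
    [SMulCommClass Δ B V] :
    letI : Module (Δ ⊗[E] B) V := TensorProduct.Algebra.module
    IsScalarTower Δ (Δ ⊗[E] B) V := by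
  letI : Module (Δ ⊗[E] B) V := TensorProduct.Algebra.module
  constructor
  intro δ x v
  induction x using TensorProduct.induction_on with
  | zero => simp
  | tmul d r =>
    rw [smul_tmul', TensorProduct.Algebra.smul_def, TensorProduct.Algebra.smul_def, smul_eq_mul,
      mul_smul]
  | add x y hx hy => rw [smul_add, add_smul, add_smul, hx, hy, smul_add]

theorem eigen_of_irreducible {V : Type u} [AddCommGroup V] [Module Δ V] [Module.Finite Δ V]
    [Module E V] [IsScalarTower E Δ V] (T : Module.End Δ V) (h : E[X]) (hirr : Irreducible h)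
    (hT : aeval T h = 0) (p : ℕ) (hp : p.Prime) (k : ℕ) (hdeg : h.natDegree = p ^ k)
    (hdim : ¬ p ∣ Module.finrank Δ V) : ∃ c : Δ, aeval c h = 0 := by
  classical
  have hfact : Fact (Irreducible h) := ⟨hirr⟩
  let φ : AdjoinRoot h →ₐ[E] Module.End Δ V :=
    Ideal.Quotient.liftₐ (Ideal.span {h}) (aeval T) (by
      intro a ha
      obtain ⟨y, rfl⟩ := Ideal.mem_span_singleton.mp ha
      rw [map_mul, hT, zero_mul])
  have hφroot : φ (AdjoinRoot.root h) = T := by
    have h0 : φ (AdjoinRoot.root h) = aeval T X := rfl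
    rw [h0, aeval_X]
  letI : Module (AdjoinRoot h) V := Module.compHom V (φ : AdjoinRoot h →+* Module.End Δ V)
  have hsmul : ∀ (r : AdjoinRoot h) (v : V), r • v = φ r v := fun r v => rfl
  have hcomm : SMulCommClass Δ (AdjoinRoot h) V :=
    ⟨fun δ r v => by rw [hsmul, hsmul, map_smul]⟩
  have htow : IsScalarTower E (AdjoinRoot h) V :=
    ⟨fun e r v => by rw [hsmul, hsmul, map_smul]; rfl⟩
  have hfd : FiniteDimensional E (AdjoinRoot h) := (AdjoinRoot.powerBasis hirr.ne_zero).finite
  letI : Module (Δ ⊗[E] AdjoinRoot h) V := TensorProduct.Algebra.module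
  have htow2 : IsScalarTower Δ (Δ ⊗[E] AdjoinRoot h) V := tower_tensor
  have hsimple : IsSimpleRing (Δ ⊗[E] AdjoinRoot h) := tensor_simple
  have hart : IsArtinianRing (Δ ⊗[E] AdjoinRoot h) := tensor_artinian
  have hfinA : Module.Finite Δ (Δ ⊗[E] AdjoinRoot h) := tensor_finite
  have hfinV : Module.Finite (Δ ⊗[E] AdjoinRoot h) V :=
    Module.Finite.of_restrictScalars_finite Δ (Δ ⊗[E] AdjoinRoot h) V
  have hVnt : Nontrivial V := by
    by_contra hnt
    rw [not_nontrivial_iff_subsingleton] at hnt
    apply hdim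
    rw [Module.finrank_zero_of_subsingleton]
    exact dvd_zero p
  -- the simple module
  have ⟨n₂, _, S₀, hS₀, ⟨e₂⟩⟩ :=
    (IsSimpleRing.isIsotypic (Δ ⊗[E] AdjoinRoot h) (Δ ⊗[E] AdjoinRoot h)).linearEquiv_fun
  have hiso : IsIsotypicOfType (Δ ⊗[E] AdjoinRoot h) V S₀ := by
    intro m hm
    have ⟨I, ⟨e⟩⟩ := IsSemisimpleRing.exists_linearEquiv_ideal_of_isSimpleModule
      (Δ ⊗[E] AdjoinRoot h) m
    have := IsSimpleModule.congr e.symm
    exact ⟨e.trans
      ((IsSimpleRing.isIsotypic (Δ ⊗[E] AdjoinRoot h) (Δ ⊗[E] AdjoinRoot h)) S₀ I).some⟩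
  have ⟨n₁, ⟨e₁⟩⟩ := hiso.linearEquiv_fun
  -- dimension counts
  have hfinS : Module.Finite Δ S₀ :=
    Module.Finite.of_injective (S₀.subtype.restrictScalars Δ) Subtype.val_injective
  have hd2 : p ^ k = n₂ * Module.finrank Δ S₀ := by
    have e' : (Δ ⊗[E] AdjoinRoot h) ≃ₗ[Δ] (Fin n₂ → S₀) := e₂.restrictScalars Δ
    have h1 := e'.finrank_eq
    rw [tensor_finrank, Module.finrank_pi_fintype, (AdjoinRoot.powerBasis hirr.ne_zero).finrank,
      AdjoinRoot.powerBasis_dim, hdeg] at h1
    simpa using h1
  have hd1 : Module.finrank Δ V = n₁ * Module.finrank Δ S₀ := by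
    have e' : V ≃ₗ[Δ] (Fin n₁ → S₀) := e₁.restrictScalars Δ
    have h1 := e'.finrank_eq
    rw [Module.finrank_pi_fintype] at h1
    simpa using h1
  have hS1 : Module.finrank Δ S₀ = 1 := by
    have hdvd : Module.finrank Δ S₀ ∣ p ^ k := ⟨n₂, by rw [hd2, mul_comm]⟩
    obtain ⟨j, _, hj⟩ := (Nat.dvd_prime_pow hp).mp hdvd
    rcases Nat.eq_zero_or_pos j with hj0 | hjpos
    · rw [hj, hj0, pow_zero]
    · exfalso
      apply hdim
      rw [hd1, hj]
      exact dvd_mul_of_dvd_right (dvd_pow_self p (by omega)) n₁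
  -- an atom of V
  have ⟨m, hm⟩ := IsAtomic.exists_atom (Submodule (Δ ⊗[E] AdjoinRoot h) V)
  rw [← isSimpleModule_iff_isAtom] at hm
  have ⟨em⟩ := hiso m
  have hm1 : Module.finrank Δ m = 1 := by
    have e' : m ≃ₗ[Δ] S₀ := em.restrictScalars Δ
    rw [e'.finrank_eq, hS1]
  have hmnt : Nontrivial m := IsSimpleModule.nontrivial (Δ ⊗[E] AdjoinRoot h) m
  obtain ⟨u, hu⟩ := exists_ne (0 : m)
  have hTu : T (u : V) ∈ m := by
    have h1 : ((1 : Δ) ⊗ₜ[E] (AdjoinRoot.root h)) • (u : V) ∈ m := m.smul_mem _ u.2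
    rw [TensorProduct.Algebra.smul_def, one_smul, hsmul, hφroot] at h1
    exact h1
  obtain ⟨c, hc⟩ := (finrank_eq_one_iff_of_nonzero' u hu).mp hm1 ⟨T (u : V), hTu⟩
  have hc' : c • (u : V) = T (u : V) := congrArg Subtype.val hc
  have hu' : (u : V) ≠ 0 := fun h0 => hu (Subtype.ext h0)
  have hpow : ∀ i : ℕ, (T ^ i) (u : V) = c ^ i • (u : V) := by
    intro i
    induction i with
    | zero => simp
    | succ i ih =>
      rw [pow_succ', Module.End.mul_apply, ih, map_smul, ← hc', smul_smul, pow_succ]
  refine ⟨c, ?_⟩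
  have h2 : (aeval T h) (u : V) = (aeval c h) • (u : V) := by
    rw [aeval_eq_sum_range, aeval_eq_sum_range, LinearMap.sum_apply, Finset.sum_smul]
    apply Finset.sum_congr rfl
    intro i _
    rw [LinearMap.smul_apply, hpow, smul_assoc]
  rw [hT, LinearMap.zero_apply] at h2
  rcases smul_eq_zero.mp h2.symm with h3 | h3
  · exact h3
  · exact absurd h3 hu'

end Eigen

section Factor

variable {E Δ : Type u} [Field E] [DivisionRing Δ] [Algebra E Δ] [Algebra.IsCentral E Δ]

theorem aeval_restrict_apply {V : Type u} [AddCommGroup V] [Module Δ V] [Module E V]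
    [IsScalarTower E Δ V] (T : Module.End Δ V) (W : Submodule Δ V) (hW : ∀ x ∈ W, T x ∈ W)
    (g : E[X]) (x : W) : ((aeval (T.restrict hW) g) x : V) = (aeval T g) (x : V) := by
  induction g using Polynomial.induction_on generalizing x with
  | C a => simp [Algebra.algebraMap_eq_smul_one]
  | add p q hp hq => simp [hp, hq]
  | monomial n a ih =>
    have e1 : aeval (T.restrict hW) (C a * X ^ (n + 1))
        = aeval (T.restrict hW) (C a * X ^ n) * T.restrict hW := by
      rw [pow_succ, ← mul_assoc, map_mul, aeval_X]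
    have e2 : aeval T (C a * X ^ (n + 1)) = aeval T (C a * X ^ n) * T := by
      rw [pow_succ, ← mul_assoc, map_mul, aeval_X]
    rw [e1, e2, Module.End.mul_apply, Module.End.mul_apply, ih]
    rfl

theorem exists_irreducible_factor_not_injective {V : Type u} [AddCommGroup V] [Module Δ V]
    [Module E V] [IsScalarTower E Δ V] (T : Module.End Δ V) (g : E[X]) (hg : g ≠ 0)
    (hni : ¬ Function.Injective (aeval T g)) :
    ∃ h : E[X], Irreducible h ∧ h ∣ g ∧ ¬ Function.Injective (aeval T h) := by
  revert hg hni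
  refine WfDvdMonoid.induction_on_irreducible g ?_ ?_ ?_
  · intro h0; exact absurd rfl h0
  · intro u hu _ hni
    exfalso; apply hni
    have h1 : IsUnit (aeval T u) := hu.map (aeval T)
    exact ((Module.End.isUnit_iff _).mp h1).injective
  · intro a i ha hi ih _ hni
    by_cases hinj : Function.Injective (aeval T i)
    · have hnia : ¬ Function.Injective (aeval T a) := by
        intro hinja
        apply hni
        rw [map_mul]
        exact hinj.comp hinja
      obtain ⟨h, hh, hdvd, hnih⟩ := ih ha hnia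
      exact ⟨h, hh, dvd_mul_of_dvd_right hdvd i, hnih⟩
    · exact ⟨i, hi, dvd_mul_right i a, hinj⟩

theorem exists_root_factor (f : E[X]) (hf0 : f ≠ 0) (p : ℕ) (hp : p.Prime)
    (hfac : ∀ h : E[X], Irreducible h → h ∣ f → ∃ k, h.natDegree = p ^ k) :
    ∀ (N : ℕ) (V : Type u) [AddCommGroup V] [Module Δ V] [Module.Finite Δ V] [Module E V]
      [IsScalarTower E Δ V] (T : Module.End Δ V), aeval T f = 0 →
      ¬ p ∣ Module.finrank Δ V → Module.finrank Δ V = N →
      ∃ h : E[X], Irreducible h ∧ h ∣ f ∧ ∃ c : Δ, aeval c h = 0 := by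
  intro N
  induction N using Nat.strong_induction_on with
  | _ N ih =>
    intro V _ _ _ _ _ T hT hdim hN
    have hVnt : Nontrivial V := by
      by_contra hnt
      rw [not_nontrivial_iff_subsingleton] at hnt
      apply hdim
      rw [Module.finrank_zero_of_subsingleton]
      exact dvd_zero p
    have hni : ¬ Function.Injective (aeval T f) := by
      rw [hT]
      intro hinj
      obtain ⟨x, y, hxy⟩ := exists_pair_ne V
      exact hxy (hinj rfl)
    obtain ⟨h, hirr, hdvd, hnih⟩ := exists_irreducible_factor_not_injective T f hf0 hni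
    obtain ⟨k, hk⟩ := hfac h hirr hdvd
    by_cases htop : LinearMap.ker (aeval T h) = ⊤
    · have hTh : aeval T h = 0 := LinearMap.ker_eq_top.mp htop
      exact ⟨h, hirr, hdvd, eigen_of_irreducible T h hirr hTh p hp k hk hdim⟩
    · have hbot : LinearMap.ker (aeval T h) ≠ ⊥ :=
        fun hb => hnih (LinearMap.ker_eq_bot.mp hb)
      have hcommT : ∀ x, (aeval T h) (T x) = T ((aeval T h) x) := by
        intro x
        have h2 : aeval T h * T = T * aeval T h := by
          have h1 : aeval T (h * X) = aeval T (X * h) := by rw [mul_comm]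
          rwa [map_mul, map_mul, aeval_X] at h1
        exact congrArg (fun φ => φ x) h2
      have hker : ∀ x ∈ LinearMap.ker (aeval T h), T x ∈ LinearMap.ker (aeval T h) := by
        intro x hx
        rw [LinearMap.mem_ker] at hx ⊢
        rw [hcommT, hx, map_zero]
      have hran : ∀ x ∈ LinearMap.range (aeval T h), T x ∈ LinearMap.range (aeval T h) := by
        rintro x ⟨y, rfl⟩
        exact ⟨T y, hcommT y⟩
      have hsum := LinearMap.finrank_range_add_finrank_ker (aeval T h)
      have hklt : Module.finrank Δ (LinearMap.ker (aeval T h)) < Module.finrank Δ V :=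
        Submodule.finrank_lt htop
      have hkpos : 0 < Module.finrank Δ (LinearMap.ker (aeval T h)) :=
        Nat.pos_of_ne_zero (fun h0 => hbot (Submodule.finrank_eq_zero.mp h0))
      by_cases hpk : p ∣ Module.finrank Δ (LinearMap.ker (aeval T h))
      · have hpr : ¬ p ∣ Module.finrank Δ (LinearMap.range (aeval T h)) := by
          intro hr; apply hdim; rw [← hsum]; exact dvd_add hr hpk
        have hTr : aeval (T.restrict hran) f = 0 := by
          ext x
          rw [aeval_restrict_apply, hT]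
          rfl
        exact ih _ (by omega) (LinearMap.range (aeval T h)) (T.restrict hran) hTr hpr rfl
      · have hTk : aeval (T.restrict hker) f = 0 := by
          ext x
          rw [aeval_restrict_apply, hT]
          rfl
        exact ih _ (by omega) (LinearMap.ker (aeval T h)) (T.restrict hker) hTk hpk rfl

end Factor

end Vale.Agent.Lib.P199
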