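import Mathlib
import Vale.Agent.Lib.P199.Tensor

namespace Vale.Agent.Lib.P199

open TensorProduct Polynomial

universe u

attribute [local instance] Algebra.TensorProduct.rightAlgebra

section Wedderburn

variable (F D E : Type u) [Field F] [DivisionRing D] [Algebra F D] [Algebra.IsCentral F D]
  [Field E] [Algebra F E] [FiniteDimensional F E]

theorem wedderburn_step :
    ∃ (n : ℕ) (_ : NeZero n) (Δ : Type u) (_ : DivisionRing Δ) (_ : Algebra E Δ),
      Nonempty ((D ⊗[F] E) ≃ₐ[E] Matrix (Fin n) (Fin n) Δ) ∧ n ∣ Module.finrank F E := by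
  classical
  have : IsSimpleRing (D ⊗[F] E) := tensor_simple
  have : IsArtinianRing (D ⊗[F] E) := tensor_artinian
  have ⟨n, hn, S, hS, ⟨e⟩⟩ := (IsSimpleRing.isIsotypic (D ⊗[F] E) (D ⊗[F] E)).linearEquiv_fun
  refine ⟨n, hn, (Module.End (D ⊗[F] E) S)ᵐᵒᵖ, inferInstance, inferInstance, ⟨?_⟩, ?_⟩
  · exact .trans (.opOp E (D ⊗[F] E)) <| .trans (.op (.trans (.moduleEndSelf E) <|
      .trans (e.conjAlgEquiv E) (endVecAlgEquivMatrixEnd ..))) (.symm .mopMatrix)
  · have : Module.Finite D (D ⊗[F] E) := tensor_finite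
    have e' : (D ⊗[F] E) ≃ₗ[D] (Fin n → S) := e.restrictScalars D
    have : Module.Finite D S :=
      Module.Finite.of_injective (S.subtype.restrictScalars D) Subtype.val_injective
    have h1 := e'.finrank_eq
    rw [tensor_finrank, Module.finrank_pi_fintype] at h1
    simp only [Finset.sum_const, Finset.card_univ, Fintype.card_fin, smul_eq_mul] at h1
    exact ⟨_, h1⟩

variable {F D E}

theorem central_of_equiv {n : ℕ} [NeZero n] {Δ : Type u} [DivisionRing Δ] [Algebra E Δ]
    (e : (D ⊗[F] E) ≃ₐ[E] Matrix (Fin n) (Fin n) Δ) : Algebra.IsCentral E Δ := by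
  constructor
  intro z hz
  rw [Subalgebra.mem_center_iff] at hz
  rw [Algebra.mem_bot]
  have hsc : ∀ M : Matrix (Fin n) (Fin n) Δ,
      Matrix.scalar (Fin n) z * M = M * Matrix.scalar (Fin n) z :=
    fun M => Matrix.scalar_commute z (fun r => (hz r).symm) M
  have hwc : ∀ d : D, (d ⊗ₜ[F] (1 : E)) * e.symm (Matrix.scalar (Fin n) z)
      = e.symm (Matrix.scalar (Fin n) z) * (d ⊗ₜ[F] (1 : E)) := by
    intro d
    apply e.injective
    rw [map_mul, map_mul, e.apply_symm_apply]
    exact (hsc _).symm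
  obtain ⟨b, hb⟩ := repr_central_of_comm (e.symm (Matrix.scalar (Fin n) z)) hwc
  refine ⟨b, ?_⟩
  have h1 : e (e.symm (Matrix.scalar (Fin n) z)) = Matrix.scalar (Fin n) z :=
    e.apply_symm_apply _
  have h2 : e (e.symm (Matrix.scalar (Fin n) z))
      = algebraMap E (Matrix (Fin n) (Fin n) Δ) b := by
    rw [hb]; exact e.commutes b
  have h3 := congrFun (congrFun (h1.symm.trans h2) 0) 0
  simpa [Matrix.algebraMap_matrix_apply] using h3.symm

theorem algebraic_of_equiv {n : ℕ} [NeZero n] {Δ : Type u} [DivisionRing Δ] [Algebra E Δ]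
    (e : (D ⊗[F] E) ≃ₐ[E] Matrix (Fin n) (Fin n) Δ)
    (halg : ∀ w : D ⊗[F] E, IsAlgebraic F w) : ∀ z : Δ, IsAlgebraic E z := by
  intro z
  obtain ⟨p, hp0, hp⟩ := halg (e.symm (Matrix.scalar (Fin n) z))
  refine ⟨p.map (algebraMap F E),
    (Polynomial.map_ne_zero_iff (algebraMap F E).injective).mpr hp0, ?_⟩
  have h1 : aeval (e.symm (Matrix.scalar (Fin n) z)) (p.map (algebraMap F E)) = 0 := by
    rw [aeval_map_algebraMap]; exact hp
  have h2 : aeval (e (e.symm (Matrix.scalar (Fin n) z))) (p.map (algebraMap F E)) = 0 := by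
    have h0 := aeval_algHom_apply (e : (D ⊗[F] E) →ₐ[E] Matrix (Fin n) (Fin n) Δ)
      (e.symm (Matrix.scalar (Fin n) z)) (p.map (algebraMap F E))
    rw [h1, map_zero] at h0
    exact h0
  rw [e.apply_symm_apply] at h2
  have h3 : aeval (Matrix.scalarAlgHom (Fin n) E z) (p.map (algebraMap F E)) = 0 := h2
  rw [aeval_algHom_apply, Matrix.scalarAlgHom_apply] at h3
  have h4 : Matrix.scalar (Fin n) (aeval z (p.map (algebraMap F E)))
      = Matrix.scalar (Fin n) (0 : Δ) := by rw [h3, map_zero]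
  exact Matrix.scalar_inj.mp h4

end Wedderburn

end Vale.Agent.Lib.P199
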