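import Mathlib
import Vale.Agent.Lib.P199.Cyclic
import Vale.Agent.Lib.P199.Wedderburn
import Vale.Agent.Lib.P199.Modules
import Vale.Agent.Lib.P199.Galois
import Vale.Agent.Lib.P199.Amitsur

namespace Vale.Agent.Lib.P199

open TensorProduct Polynomial

universe u

attribute [local instance] Algebra.TensorProduct.rightAlgebra

theorem comm_of_noncomm_fd_tower {F E Δ : Type u} [Field F] [Field E] [Algebra F E]
    [FiniteDimensional F E] [DivisionRing Δ] [Algebra E Δ]
    (hBr : ∀ (B : Type u) [DivisionRing B] [Algebra F B] [FiniteDimensional F B],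
      ∀ x y : B, x * y = y * x)
    (B : Subalgebra E Δ) (hfd : FiniteDimensional E B) (x y : B) : x * y = y * x := by
  let _ : DivisionRing B := divisionRingOfFiniteDimensional E B
  let _ : Algebra F B := Algebra.compHom B (algebraMap F E)
  have hst : IsScalarTower F E B := IsScalarTower.of_algebraMap_eq (fun _ => rfl)
  have hfin : FiniteDimensional F B := Module.Finite.trans E B
  exact hBr B x y

theorem matrix_aeval {E Δ : Type u} [Field E] [DivisionRing Δ] [Algebra E Δ] {n : ℕ}
    (M : Matrix (Fin n) (Fin n) Δ) (g : E[X]) (hM : aeval M g = 0) :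
    aeval (Matrix.toLinearMapRight' M : Module.End Δ (Fin n → Δ)) g = 0 := by
  have hsmul : ∀ (c : E) (N : Matrix (Fin n) (Fin n) Δ),
      (Matrix.toLinearMapRight' (c • N) : Module.End Δ (Fin n → Δ))
        = c • (Matrix.toLinearMapRight' N : Module.End Δ (Fin n → Δ)) := by
    intro c N
    apply LinearMap.ext
    intro v
    rw [Matrix.toLinearMapRight'_apply, LinearMap.smul_apply, Matrix.toLinearMapRight'_apply,
      Matrix.vecMul_smul]
  have hpow : ∀ (N : Matrix (Fin n) (Fin n) Δ) (k : ℕ),
      (Matrix.toLinearMapRight' (N ^ k) : Module.End Δ (Fin n → Δ))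
        = (Matrix.toLinearMapRight' N : Module.End Δ (Fin n → Δ)) ^ k := by
    intro N k
    induction k with
    | zero =>
      rw [pow_zero, pow_zero, Matrix.toLinearMapRight'_one]
      rfl
    | succ k ih =>
      rw [pow_succ, Matrix.toLinearMapRight'_mul, ih, pow_succ']
      rfl
  rw [aeval_eq_sum_range] at hM ⊢
  have h1 := congrArg (fun N => (Matrix.toLinearMapRight' N : Module.End Δ (Fin n → Δ))) hM
  simp only [map_sum, map_zero] at h1
  rw [← h1]
  refine Finset.sum_congr rfl fun k _ => ?_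
  rw [hsmul, hpow]

theorem center_of_tensor_algebraic (F D : Type u) [Field F] [DivisionRing D] [Algebra F D]
    [Algebra.IsCentral F D] [Algebra.IsAlgebraic F D]
    (hBr : ∀ (B : Type u) [DivisionRing B] [Algebra F B] [FiniteDimensional F B],
      ∀ x y : B, x * y = y * x)
    (hT : ∀ (E : Type u) [Field E] [Algebra F E] [FiniteDimensional F E]
      [Algebra.IsSeparable F E], ∀ w : D ⊗[F] E, IsAlgebraic F w) :
    Function.Surjective (algebraMap F D) := by
  by_contra hsurj
  have hneq : (⊥ : Subalgebra F D) ≠ ⊤ := by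
    intro hbt
    apply hsurj
    intro x
    have : x ∈ (⊥ : Subalgebra F D) := by rw [hbt]; exact Algebra.mem_top
    exact Algebra.mem_bot.mp this
  obtain ⟨a, ha, hasep⟩ := JacobsonNoether.exists_separable_and_not_isCentral' hneq
  have haint : IsIntegral F a := (Algebra.IsAlgebraic.isAlgebraic a).isIntegral
  have hirr : Irreducible (minpoly F a) := minpoly.irreducible haint
  have hmon : (minpoly F a).Monic := minpoly.monic haint
  have hdeg : (minpoly F a).natDegree ≠ 1 := by
    intro h
    apply ha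
    rw [Algebra.mem_bot]
    exact minpoly.natDegree_eq_one_iff.mp h
  obtain ⟨p, hp, hpdvd⟩ := Nat.exists_prime_and_dvd hdeg
  obtain ⟨E, instE, instAlg, instFD, instSep, hpE, hE⟩ := galois_step (minpoly F a) hirr hasep p hp hpdvd
  obtain ⟨n, instn, Δ, instΔ, instAlgΔ, ⟨e⟩, hn⟩ := wedderburn_step F D E
  have hcent : Algebra.IsCentral E Δ := central_of_equiv e
  have halgΔ : ∀ z : Δ, IsAlgebraic E z := algebraic_of_equiv e (hT E)
  have hM : aeval (e (a ⊗ₜ[F] (1 : E))) ((minpoly F a).map (algebraMap F E)) = 0 := by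
    have h0 := aeval_algHom_apply (e : (D ⊗[F] E) →ₐ[E] Matrix (Fin n) (Fin n) Δ)
      (a ⊗ₜ[F] (1 : E)) ((minpoly F a).map (algebraMap F E))
    have h1 : aeval (a ⊗ₜ[F] (1 : E)) (minpoly F a)
        = (Algebra.TensorProduct.includeLeft : D →ₐ[F] D ⊗[F] E) (aeval a (minpoly F a)) :=
      aeval_algHom_apply (Algebra.TensorProduct.includeLeft : D →ₐ[F] D ⊗[F] E) a (minpoly F a)
    have h2 : aeval (e (a ⊗ₜ[F] (1 : E))) ((minpoly F a).map (algebraMap F E))
        = e (aeval (a ⊗ₜ[F] (1 : E)) ((minpoly F a).map (algebraMap F E))) := h0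
    rw [h2, aeval_map_algebraMap, h1, minpoly.aeval, map_zero]
    exact map_zero _
  have hT := matrix_aeval _ _ hM
  have hfr : Module.finrank Δ (Fin n → Δ) = n := Module.finrank_fin_fun Δ
  have hpn : ¬ p ∣ Module.finrank Δ (Fin n → Δ) := by
    rw [hfr]
    exact fun h => hpE (h.trans hn)
  have hg0 : (minpoly F a).map (algebraMap F E) ≠ 0 :=
    (Polynomial.map_ne_zero_iff (algebraMap F E).injective).mpr hmon.ne_zero
  obtain ⟨h, hhirr, hhdvd, c, hc⟩ := exists_root_factor ((minpoly F a).map (algebraMap F E)) hg0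
    p hp (fun h hi hd => (hE h hi hd).1) n (Fin n → Δ) _ hT hpn hfr
  obtain ⟨-, q, hq1, hq2⟩ := hE h hhirr hhdvd
  obtain ⟨B, hfd, x, y, hxy⟩ := key_noncomm c h q hhirr hc hq1 hq2 halgΔ
  exact hxy (comm_of_noncomm_fd_tower hBr B hfd x y)

theorem uncountable_center (F D : Type u) [Field F] [DivisionRing D] [Algebra F D]
    [Algebra.IsCentral F D] [Algebra.IsAlgebraic F D] [Uncountable F]
    (hBr : ∀ (B : Type u) [DivisionRing B] [Algebra F B] [FiniteDimensional F B],
      ∀ x y : B, x * y = y * x) :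
    Function.Surjective (algebraMap F D) :=
  center_of_tensor_algebraic F D hBr (fun E _ _ _ _ w => tensor_algebraic w)

end Vale.Agent.Lib.P199
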