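import Mathlib
import Vale.Agent.Lib.P199.Main

namespace Vale.Agent.Lib.P199

open TensorProduct Polynomial

universe u

attribute [local instance] Algebra.TensorProduct.rightAlgebra

theorem virtually_trivial (F M D : Type u) [Field F] [Uncountable F] [Field M] [Algebra F M]
    [FiniteDimensional F M] [DivisionRing D] [Algebra F D] [Algebra.IsCentral F D]
    [Algebra.IsAlgebraic F D]
    (hBr : ∀ (B : Type u) [DivisionRing B] [Algebra M B] [FiniteDimensional M B],
      ∀ x y : B, x * y = y * x) :
    FiniteDimensional F D ∧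
      ∃ n : ℕ, n ∣ Module.finrank F M ∧ Module.finrank F D = n ^ 2 := by
  obtain ⟨n, instn, Δ, instΔ, instAlgΔ, ⟨e⟩, hn⟩ := wedderburn_step F D M
  have hcent : Algebra.IsCentral M Δ := central_of_equiv e
  have halgΔ : ∀ z : Δ, IsAlgebraic M z := algebraic_of_equiv e (fun w => tensor_algebraic w)
  have halgΔ' : Algebra.IsAlgebraic M Δ := ⟨halgΔ⟩
  have hunc : Uncountable M := (algebraMap F M).injective.uncountable
  have hsurj : Function.Surjective (algebraMap M Δ) := uncountable_center M Δ hBr
  have hΔfin : Module.Finite M Δ := Module.Finite.of_surjective (Algebra.linearMap M Δ) hsurj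
  have hTfinM : Module.Finite M (D ⊗[F] M) :=
    Module.Finite.equiv e.symm.toLinearEquiv
  have hTfinF : Module.Finite F (D ⊗[F] M) := Module.Finite.trans M (D ⊗[F] M)
  have hDfin : FiniteDimensional F D :=
    FiniteDimensional.of_injective
      (Algebra.TensorProduct.includeLeft : D →ₐ[F] D ⊗[F] M).toLinearMap
      (RingHom.injective (Algebra.TensorProduct.includeLeft : D →ₐ[F] D ⊗[F] M).toRingHom)
  refine ⟨hDfin, n, hn, ?_⟩
  have h1 : Module.finrank F (D ⊗[F] M) = Module.finrank F D * Module.finrank F M :=
    Module.finrank_tensorProduct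
  have h2 : Module.finrank F M * Module.finrank M (D ⊗[F] M) = Module.finrank F (D ⊗[F] M) :=
    Module.finrank_mul_finrank F M (D ⊗[F] M)
  have h3 : Module.finrank M (D ⊗[F] M) = Module.finrank M (Matrix (Fin n) (Fin n) Δ) :=
    e.toLinearEquiv.finrank_eq
  have h4 : Module.finrank M Δ = 1 := by
    have hbij : Function.Bijective (Algebra.linearMap M Δ) :=
      ⟨(algebraMap M Δ).injective, hsurj⟩
    rw [← (LinearEquiv.ofBijective (Algebra.linearMap M Δ) hbij).finrank_eq, Module.finrank_self]
  rw [Module.finrank_matrix, h4, Fintype.card_fin, mul_one] at h3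
  have hpos : 0 < Module.finrank F M := Module.finrank_pos
  rw [h1, h3] at h2
  have h5 : Module.finrank F M * (n * n) = Module.finrank F M * Module.finrank F D := by
    rw [h2, mul_comm]
  have h6 := Nat.eq_of_mul_eq_mul_left hpos h5
  rw [pow_two, h6]

end Vale.Agent.Lib.P199
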