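import Mathlib
import Vale.Agent.Lib.P199.Descent

namespace Vale.Agent.Lib.P199

open TensorProduct Polynomial

universe u

/-- A finite-dimensional algebra over a field `F` that is algebraic over a subfield `k`
is locally finite over `k`: every finite subset lies in a finite-dimensional
`k`-subalgebra (structure constant argument). -/
theorem exists_fd_subalgebra {k F A : Type*} [Field k] [Field F] [Algebra k F]
    [Algebra.IsAlgebraic k F] [Ring A] [Algebra F A] [Algebra k A] [IsScalarTower k F A]
    [FiniteDimensional F A] (S : Finset A) :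
    ∃ A₀ : Subalgebra k A, FiniteDimensional k A₀ ∧ (S : Set A) ⊆ A₀ := by
  classical
  set n := Module.finrank F A with hn
  let e : Module.Basis (Fin n) F A := Module.finBasis F A
  let T : Finset F :=
    (Finset.univ.image fun p : Fin n × Fin n × Fin n => e.repr (e p.1 * e p.2.1) p.2.2) ∪
    (Finset.univ.image fun l : Fin n => e.repr 1 l) ∪
    (S.biUnion fun s => Finset.univ.image fun l : Fin n => e.repr s l)
  let K : Subalgebra k F := Algebra.adjoin k (T : Set F)
  have hKfg : (Subalgebra.toSubmodule K).FG :=
    fg_adjoin_of_finite T.finite_toSet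
      (fun t _ => (Algebra.IsAlgebraic.isAlgebraic t).isIntegral)
  let φ : F →ₗ[k] A := (Algebra.linearMap F A).restrictScalars k
  let P : Submodule k A := (Subalgebra.toSubmodule K).map φ
  let Q : Submodule k A := Submodule.span k (Set.range e)
  have hPfg : P.FG := hKfg.map φ
  have hQfg : Q.FG := Submodule.fg_span (Set.finite_range e)
  have hφ : ∀ a : F, φ a = algebraMap F A a := fun a => rfl
  have hPP : P * P ≤ P := by
    rw [Submodule.mul_le]
    rintro _ ⟨a, ha, rfl⟩ _ ⟨b, hb, rfl⟩
    refine ⟨a * b, K.mul_mem ha hb, ?_⟩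
    rw [hφ, hφ, hφ, map_mul]
  have hcomm : Q * P = P * Q := by
    refine Submodule.mul_comm_of_commute ?_
    rintro q _ _ ⟨a, _, rfl⟩
    exact (Algebra.commutes a q).symm
  have hmem : ∀ b : A, (∀ l, e.repr b l ∈ K) → b ∈ P * Q := by
    intro b hb
    rw [← e.sum_repr b]
    refine Submodule.sum_mem _ fun l _ => ?_
    rw [Algebra.smul_def]
    exact Submodule.mul_mem_mul (Submodule.mem_map_of_mem (hb l))
      (Submodule.subset_span (Set.mem_range_self l))
  have hQQ : Q * Q ≤ P * Q := by
    rw [Submodule.span_mul_span]
    refine Submodule.span_le.mpr ?_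
    rintro _ ⟨_, ⟨i, rfl⟩, _, ⟨j, rfl⟩, rfl⟩
    refine hmem _ fun l => Algebra.subset_adjoin ?_
    simp only [T, Finset.coe_union, Finset.coe_image, Finset.coe_univ, Set.image_univ,
      Set.mem_union, Set.mem_range]
    exact Or.inl (Or.inl ⟨(i, j, l), rfl⟩)
  have hWW : (P * Q) * (P * Q) ≤ P * Q := by
    calc (P * Q) * (P * Q) = P * (Q * P) * Q := by simp only [mul_assoc]
      _ = (P * P) * (Q * Q) := by rw [hcomm]; simp only [mul_assoc]
      _ ≤ P * (P * Q) := mul_le_mul' hPP hQQ
      _ = (P * P) * Q := by rw [mul_assoc]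
      _ ≤ P * Q := mul_le_mul' hPP le_rfl
  have h1 : (1 : A) ∈ P * Q := by
    refine hmem 1 fun l => Algebra.subset_adjoin ?_
    simp only [T, Finset.coe_union, Finset.coe_image, Finset.coe_univ, Set.image_univ,
      Set.mem_union, Set.mem_range]
    exact Or.inl (Or.inr ⟨l, rfl⟩)
  refine ⟨(P * Q).toSubalgebra h1 (fun a b ha hb => hWW (Submodule.mul_mem_mul ha hb)), ?_, ?_⟩
  · exact Module.Finite.iff_fg.mpr (hPfg.mul hQfg)
  · intro s hs
    refine hmem s fun l => Algebra.subset_adjoin ?_
    simp only [T, Finset.coe_union, Finset.coe_image, Finset.coe_univ, Set.image_univ,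
      Set.mem_union, Set.mem_range, Finset.coe_biUnion, Set.mem_iUnion]
    exact Or.inr ⟨s, hs, l, rfl⟩

/-- Descent of Brauer-triviality along an algebraic extension: if every finite-dimensional
division algebra over `M` is commutative, the same holds over every algebraic extension
field `L` of `M`. -/
theorem br_descent {M L : Type u} [Field M] [Field L] [Algebra M L] [Algebra.IsAlgebraic M L]
    (hBr : ∀ (B : Type u) [DivisionRing B] [Algebra M B] [FiniteDimensional M B],
      ∀ x y : B, x * y = y * x)
    (B : Type u) [DivisionRing B] [Algebra L B] [FiniteDimensional L B] (x y : B) :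
    x * y = y * x := by
  classical
  let _ : Algebra M B := Algebra.compHom B (algebraMap M L)
  have : IsScalarTower M L B := IsScalarTower.of_algebraMap_eq (fun _ => rfl)
  obtain ⟨B₀, hfd, hS⟩ := exists_fd_subalgebra (k := M) (F := L) ({x, y} : Finset B)
  have hx : x ∈ B₀ := hS (by simp)
  have hy : y ∈ B₀ := hS (by simp)
  have h := comm_of_noncomm_fd_tower (F := M) (E := M) hBr B₀ hfd ⟨x, hx⟩ ⟨y, hy⟩
  exact congrArg Subtype.val h

/-- A compositum: a field `L`, finite over `F` and algebraic over `M`, receiving both. -/
theorem exists_compositum (k F M : Type u) [Field k] [Field F] [Field M] [Algebra k F]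
    [Algebra k M] [FiniteDimensional k M] [Algebra.IsAlgebraic k F] :
    ∃ (L : Type u) (_ : Field L) (_ : Algebra F L) (_ : Algebra M L),
      FiniteDimensional F L ∧ Algebra.IsAlgebraic M L ∧
        Module.finrank F L ≤ Module.finrank k M := by
  classical
  obtain ⟨m, hm⟩ := Ideal.exists_maximal (F ⊗[k] M)
  let _ : Field ((F ⊗[k] M) ⧸ m) := Ideal.Quotient.field m
  let ι : M →+* (F ⊗[k] M) ⧸ m :=
    (Ideal.Quotient.mk m).comp
      (Algebra.TensorProduct.includeRight : M →ₐ[k] F ⊗[k] M).toRingHom
  let _ : Algebra M ((F ⊗[k] M) ⧸ m) := ι.toAlgebra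
  have hsurj : Function.Surjective (Ideal.Quotient.mkₐ F m) := Ideal.Quotient.mkₐ_surjective F m
  have hfin : FiniteDimensional F ((F ⊗[k] M) ⧸ m) :=
    Module.Finite.of_surjective (Ideal.Quotient.mkₐ F m).toLinearMap hsurj
  refine ⟨(F ⊗[k] M) ⧸ m, inferInstance, inferInstance, inferInstance, hfin, ?_, ?_⟩
  · have : IsScalarTower k M ((F ⊗[k] M) ⧸ m) := by
      refine IsScalarTower.of_algebraMap_eq fun c => ?_
      change Ideal.Quotient.mk m (algebraMap k (F ⊗[k] M) c) =
        Ideal.Quotient.mk m ((1 : F) ⊗ₜ[k] algebraMap k M c)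
      rw [Algebra.TensorProduct.algebraMap_apply, Algebra.algebraMap_eq_smul_one,
        Algebra.algebraMap_eq_smul_one, TensorProduct.smul_tmul]
    refine ⟨fun z => IsIntegral.isAlgebraic ?_⟩
    obtain ⟨t, rfl⟩ := Ideal.Quotient.mk_surjective z
    induction t using TensorProduct.induction_on with
    | zero => rw [map_zero]; exact isIntegral_zero
    | tmul f a =>
      have h1 : (f ⊗ₜ[k] a : F ⊗[k] M) = (f ⊗ₜ[k] (1 : M)) * ((1 : F) ⊗ₜ[k] a) := by
        rw [Algebra.TensorProduct.tmul_mul_tmul, mul_one, one_mul]
      rw [h1, map_mul]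
      refine IsIntegral.mul ?_ ?_
      · have hf : IsIntegral k f := (Algebra.IsAlgebraic.isAlgebraic f).isIntegral
        have h2 : IsIntegral k (Ideal.Quotient.mk m (f ⊗ₜ[k] (1 : M))) := by
          have := hf.map ((Ideal.Quotient.mkₐ k m).comp
            (Algebra.TensorProduct.includeLeft : F →ₐ[k] F ⊗[k] M))
          exact this
        exact h2.tower_top
      · exact isIntegral_algebraMap (x := a)
    | add t₁ t₂ h₁ h₂ => rw [map_add]; exact h₁.add h₂
  · calc Module.finrank F ((F ⊗[k] M) ⧸ m) ≤ Module.finrank F (F ⊗[k] M) :=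
        LinearMap.finrank_le_finrank_of_surjective (f := (Ideal.Quotient.mkₐ F m).toLinearMap) hsurj
      _ = Module.finrank k M := Module.finrank_baseChange

/-- Kurosh's problem in its original formulation, for an uncountable central subfield `k`
possessing a finite extension `M` over which all finite-dimensional division algebras are
commutative: a division ring algebraic over `k` is finite-dimensional over its center
and locally finite over `k`. -/
theorem central_subfield (k D M : Type u) [Field k] [Uncountable k] [DivisionRing D]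
    [Algebra k D] [Algebra.IsAlgebraic k D] [Field M] [Algebra k M] [FiniteDimensional k M]
    (hBr : ∀ (B : Type u) [DivisionRing B] [Algebra M B] [FiniteDimensional M B],
      ∀ x y : B, x * y = y * x) :
    FiniteDimensional (Subring.center D) D ∧
      Module.finrank (Subring.center D) D ≤ (Module.finrank k M) ^ 2 ∧
      ∀ S : Finset D, FiniteDimensional k (Algebra.adjoin k (S : Set D)) := by
  classical
  let ψ : k →+* Subring.center D :=
    (algebraMap k D).codRestrict (Subring.center D)
      (fun c => Subring.mem_center_iff.mpr fun g => (Algebra.commutes c g).symm)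
  let _ : Algebra k (Subring.center D) := ψ.toAlgebra
  have hst : IsScalarTower k (Subring.center D) D := IsScalarTower.of_algebraMap_eq (fun c => rfl)
  have hkF : Algebra.IsAlgebraic k (Subring.center D) := by
    refine ⟨fun z => ?_⟩
    have hz : IsAlgebraic k (z : D) := Algebra.IsAlgebraic.isAlgebraic (z : D)
    exact (isAlgebraic_algHom_iff (IsScalarTower.toAlgHom k (Subring.center D) D)
      Subtype.val_injective).mp hz
  have hFD : Algebra.IsAlgebraic (Subring.center D) D :=
    Algebra.IsAlgebraic.extendScalars (R := k) (S := Subring.center D) (A := D) ψ.injective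
  have hcent : Algebra.IsCentral (Subring.center D) D := by
    refine ⟨fun x hx => ?_⟩
    rw [Subalgebra.mem_center_iff] at hx
    rw [Algebra.mem_bot]
    exact ⟨⟨x, Subring.mem_center_iff.mpr fun g => hx g⟩, rfl⟩
  have hunc : Uncountable (Subring.center D) := ψ.injective.uncountable
  obtain ⟨L, _, _, _, hLfin, hLalg, hLrank⟩ := exists_compositum k (Subring.center D) M
  have hBrL : ∀ (B : Type u) [DivisionRing B] [Algebra L B] [FiniteDimensional L B],
      ∀ x y : B, x * y = y * x := fun B _ _ _ x y => br_descent (M := M) (L := L) hBr B x y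
  obtain ⟨hfd, n, hn, hrank⟩ := virtually_trivial (Subring.center D) L D hBrL
  refine ⟨hfd, ?_, ?_⟩
  · rw [hrank]
    have hpos : 0 < Module.finrank (Subring.center D) L := Module.finrank_pos
    exact Nat.pow_le_pow_left ((Nat.le_of_dvd hpos hn).trans hLrank) 2
  · intro S
    obtain ⟨A₀, hA₀, hS⟩ := exists_fd_subalgebra (k := k) (F := Subring.center D) S
    have hle : Algebra.adjoin k (S : Set D) ≤ A₀ := Algebra.adjoin_le hS
    exact Module.Finite.of_injective (Subalgebra.inclusion hle).toLinearMap
      (Subalgebra.inclusion_injective hle)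

/-- Amitsur: a finitely generated division algebra over an uncountable field is algebraic. -/
theorem algebraic_of_finiteType (k D : Type u) [Field k] [Uncountable k] [DivisionRing D]
    [Algebra k D] [Algebra.FiniteType k D] : Algebra.IsAlgebraic k D := by
  classical
  obtain ⟨S, hS⟩ := Algebra.FiniteType.out (R := k) (A := D)
  have hrank : Module.rank k D ≤ Cardinal.aleph0 := by
    have h1 := adjoin_rank_le (F := k) (D := D) (S : Set D) S.countable_toSet
    rw [hS] at h1
    rwa [← (Subalgebra.topEquiv (R := k) (A := D)).toLinearEquiv.rank_eq]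
  refine ⟨fun x => amitsur_trick hrank x ?_⟩
  refine Set.Subsingleton.countable ?_
  intro a ha b hb
  have key : ∀ l : k, ¬ IsUnit (x - algebraMap k D l) → algebraMap k D l = x := by
    intro l hl
    by_contra hne
    exact hl (isUnit_iff_ne_zero.mpr (sub_ne_zero.mpr (fun h => hne h.symm)))
  exact (algebraMap k D).injective ((key a ha).trans (key b hb).symm)

/-- Finitely generated division algebras over an uncountable field `k` with a finite
Brauer-trivial extension `M` are finite-dimensional over `k`. -/
theorem affine_fd (k D M : Type u) [Field k] [Uncountable k] [DivisionRing D]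
    [Algebra k D] [Algebra.FiniteType k D] [Field M] [Algebra k M] [FiniteDimensional k M]
    (hBr : ∀ (B : Type u) [DivisionRing B] [Algebra M B] [FiniteDimensional M B],
      ∀ x y : B, x * y = y * x) :
    FiniteDimensional k D := by
  classical
  have halg : Algebra.IsAlgebraic k D := algebraic_of_finiteType k D
  obtain ⟨-, -, hloc⟩ := central_subfield k D M hBr
  obtain ⟨S, hS⟩ := Algebra.FiniteType.out (R := k) (A := D)
  have h1 := hloc S
  rw [hS] at h1
  exact Module.Finite.equiv (Subalgebra.topEquiv (R := k) (A := D)).toLinearEquiv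

end Vale.Agent.Lib.P199
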