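import Mathlib
import Vale.Agent.Lib.P199.Tensor

namespace Vale.Agent.Lib.P199

open TensorProduct Polynomial

universe u

theorem exists_common_dependence {F D : Type*} [Field F] [AddCommGroup D] [Module F D]
    (n N K : ℕ) (y : Fin K → Fin (n + 1) → D) (a : Fin K → Fin (N + 1) → F)
    (hy : ∀ k, ¬ LinearIndependent F (y k)) (hK : K * n < (n + 1) * (N + 1)) :
    ∃ c : Fin (n + 1) → Fin (N + 1) → F, c ≠ 0 ∧
      ∀ k, ∑ i, (∑ e, c i e * a k e) • y k i = 0 := by
  classical
  let W : Fin K → Submodule F D := fun k => Submodule.span F (Set.range (y k))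
  have hWfin : ∀ k, FiniteDimensional F (W k) :=
    fun k => FiniteDimensional.span_of_finite F (Set.finite_range _)
  have hWdim : ∀ k, Module.finrank F (W k) ≤ n := by
    intro k
    have hle : (Set.range (y k)).finrank F ≤ Fintype.card (Fin (n + 1)) := finrank_range_le_card _
    have hne : Fintype.card (Fin (n + 1)) ≠ (Set.range (y k)).finrank F :=
      fun heq => hy k (linearIndependent_iff_card_eq_finrank_span.mpr heq)
    rw [Fintype.card_fin] at hle hne
    have h1 : (Set.range (y k)).finrank F = Module.finrank F (W k) := rfl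
    omega
  let ψ : Fin K → ((Fin (n + 1) → Fin (N + 1) → F) →ₗ[F] D) := fun k =>
    ∑ i, ∑ e, ((LinearMap.proj e : (Fin (N + 1) → F) →ₗ[F] F).comp
      (LinearMap.proj i : (Fin (n + 1) → Fin (N + 1) → F) →ₗ[F] (Fin (N + 1) → F))).smulRight
        (a k e • y k i)
  have hψ : ∀ k c, ψ k c = ∑ i, (∑ e, c i e * a k e) • y k i := by
    intro k c
    simp only [ψ, LinearMap.sum_apply, LinearMap.smulRight_apply, LinearMap.comp_apply,
      LinearMap.proj_apply, Finset.sum_smul, smul_smul]
  have hmem : ∀ k c, ψ k c ∈ W k := by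
    intro k c
    rw [hψ]
    exact Submodule.sum_mem _ fun i _ => Submodule.smul_mem _ _ (Submodule.subset_span ⟨i, rfl⟩)
  let Ψ : (Fin (n + 1) → Fin (N + 1) → F) →ₗ[F] (∀ k, W k) :=
    LinearMap.pi fun k => (ψ k).codRestrict (W k) (hmem k)
  have hdim : Module.finrank F (∀ k, W k) < Module.finrank F (Fin (n + 1) → Fin (N + 1) → F) := by
    rw [Module.finrank_pi_fintype, Module.finrank_pi_fintype]
    simp only [Module.finrank_fin_fun, Finset.sum_const, Finset.card_univ, Fintype.card_fin,
      smul_eq_mul]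
    calc ∑ k, Module.finrank F (W k) ≤ ∑ _k : Fin K, n := Finset.sum_le_sum fun k _ => hWdim k
      _ = K * n := by simp
      _ < (n + 1) * (N + 1) := hK
  have hker := LinearMap.ker_ne_bot_of_finrank_lt (f := Ψ) hdim
  obtain ⟨c, hc, hc0⟩ := (Submodule.ne_bot_iff _).mp hker
  refine ⟨c, hc0, fun k => ?_⟩
  have h1 : Ψ c k = 0 := by
    rw [LinearMap.mem_ker.mp hc]
    rfl
  have h2 : ((Ψ c k : W k) : D) = ψ k c := rfl
  rw [← hψ, ← h2, h1]
  rfl

noncomputable def evalCentral {F D : Type*} [Field F] [Ring D] [Algebra F D] (t : F) :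
    D[X] →+* D :=
  Polynomial.eval₂RingHom' (RingHom.id D) (algebraMap F D t)
    (fun a => Algebra.commute_algebraMap_right t a)

theorem evalCentral_eq_sum {F D : Type*} [Field F] [Ring D] [Algebra F D] (t : F) (Z : D[X])
    (K : ℕ) (hK : Z.natDegree < K) :
    evalCentral t Z = ∑ e ∈ Finset.range K, t ^ e • Z.coeff e := by
  have h1 : evalCentral t Z = Z.eval₂ (RingHom.id D) (algebraMap F D t) := rfl
  rw [h1, eval₂_eq_sum_range' _ hK]
  refine Finset.sum_congr rfl fun e _ => ?_
  rw [RingHom.id_apply, ← map_pow, ← Algebra.commutes, Algebra.smul_def]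

theorem evalCentral_map {F D : Type*} [Field F] [Ring D] [Algebra F D] (t : F) (c : F[X]) :
    evalCentral t (c.map (algebraMap F D)) = algebraMap F D (c.eval t) := by
  have h1 : evalCentral t (c.map (algebraMap F D))
      = (c.map (algebraMap F D)).eval₂ (RingHom.id D) (algebraMap F D t) := rfl
  rw [h1, eval₂_map, RingHom.id_comp, Polynomial.eval₂_at_apply]

theorem eq_zero_of_many_central_roots {F D : Type*} [Field F] [Ring D] [Algebra F D]
    (Z : D[X]) (K : ℕ) (hK : Z.natDegree < K) (t : Fin K → F) (ht : Function.Injective t)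
    (hZ : ∀ k, evalCentral (t k) Z = 0) : Z = 0 := by
  classical
  have key : ∀ φ : Module.Dual F D, ∀ e : Fin K, φ (Z.coeff e) = 0 := by
    intro φ
    have hP : (∑ e : Fin K, C (φ (Z.coeff e)) * X ^ (e : ℕ)) = 0 := by
      apply eq_zero_of_natDegree_lt_card_of_eval_eq_zero _ ht
      · intro k
        have h1 := congrArg φ (hZ k)
        rw [evalCentral_eq_sum (t k) Z K hK, map_sum, map_zero] at h1
        rw [eval_finsetSum, ← h1, ← Fin.sum_univ_eq_sum_range (fun e => φ (t k ^ e • Z.coeff e)) K]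
        refine Finset.sum_congr rfl fun e _ => ?_
        rw [eval_mul, eval_C, eval_pow, eval_X, map_smul, smul_eq_mul, mul_comm]
      · rw [Fintype.card_fin]
        have hdeg := degree_sum_fin_lt (fun e : Fin K => φ (Z.coeff e))
        by_cases h0 : (∑ e : Fin K, C (φ (Z.coeff e)) * X ^ (e : ℕ)) = 0
        · rw [h0, natDegree_zero]
          omega
        · exact (natDegree_lt_iff_degree_lt h0).mpr hdeg
    intro e
    have h2 := congrArg (fun p => p.coeff (e : ℕ)) hP
    simp only [finsetSum_coeff, coeff_C_mul, coeff_X_pow, coeff_zero] at h2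
    rw [Finset.sum_eq_single e] at h2
    · simpa using h2
    · intro b _ hb
      have : ¬ ((e : ℕ) = (b : ℕ)) := fun h => hb (Fin.ext h.symm)
      simp [this]
    · intro h
      exact absurd (Finset.mem_univ e) h
  ext e
  rw [coeff_zero]
  by_cases he : e < K
  · exact (Module.forall_dual_apply_eq_zero_iff F (Z.coeff e)).mp (fun φ => key φ ⟨e, he⟩)
  · exact coeff_eq_zero_of_natDegree_lt (by omega)

theorem generic_relation {F D : Type*} [Field F] [Infinite F] [Ring D] [Algebra F D]
    (Y : D[X]) (n : ℕ)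
    (h : ∀ t : F, ∃ p : F[X], p ≠ 0 ∧ p.natDegree ≤ n ∧ aeval (evalCentral t Y) p = 0) :
    ∃ c : Fin (n + 1) → F[X], c ≠ 0 ∧ (∀ i, (c i).natDegree ≤ n * (n * Y.natDegree)) ∧
      ∑ i, (c i).map (algebraMap F D) * Y ^ (i : ℕ) = 0 := by
  classical
  set δ := n * Y.natDegree with hδ
  set N := n * δ with hN
  set K := N + δ + 1 with hK
  let t : Fin K → F := fun k => Infinite.natEmbedding F (k : ℕ)
  have ht : Function.Injective t :=
    fun a b hab => Fin.ext ((Infinite.natEmbedding F).injective hab)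
  let y : Fin K → Fin (n + 1) → D := fun k i => (evalCentral (t k) Y) ^ (i : ℕ)
  let a : Fin K → Fin (N + 1) → F := fun k e => t k ^ (e : ℕ)
  have hy : ∀ k, ¬ LinearIndependent F (y k) := by
    intro k hli
    obtain ⟨p, hp0, hpn, hp⟩ := h (t k)
    rw [Fintype.linearIndependent_iff] at hli
    have h1 : ∑ i : Fin (n + 1), p.coeff (i : ℕ) • y k i = 0 := by
      rw [aeval_eq_sum_range' (show p.natDegree < n + 1 by omega)] at hp
      rw [← hp, ← Fin.sum_univ_eq_sum_range
        (fun i => p.coeff i • (evalCentral (t k) Y) ^ i) (n + 1)]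
    have h2 := hli (fun i => p.coeff (i : ℕ)) h1
    apply hp0
    ext i
    rw [coeff_zero]
    by_cases hi : i < n + 1
    · exact h2 ⟨i, hi⟩
    · exact coeff_eq_zero_of_natDegree_lt (by omega)
  have hcount : K * n < (n + 1) * (N + 1) := by
    rw [hK, hN]
    nlinarith
  obtain ⟨c, hc0, hc⟩ := exists_common_dependence n N K y a hy hcount
  let P : Fin (n + 1) → F[X] := fun i => ∑ e : Fin (N + 1), C (c i e) * X ^ (e : ℕ)
  have hPeval : ∀ i k, (P i).eval (t k) = ∑ e, c i e * a k e := by
    intro i k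
    simp only [P, a, eval_finsetSum, eval_mul, eval_C, eval_pow, eval_X]
  have hPdeg : ∀ i, (P i).natDegree ≤ N := by
    intro i
    apply natDegree_sum_le_of_forall_le
    intro e _
    exact (natDegree_C_mul_X_pow_le _ _).trans (by omega)
  refine ⟨P, ?_, hPdeg, ?_⟩
  · intro hP0
    apply hc0
    funext i e
    have h3 := congrArg (fun p => p.coeff (e : ℕ)) (congrFun hP0 i)
    simp only [P, finsetSum_coeff, coeff_C_mul, coeff_X_pow, Pi.zero_apply, coeff_zero] at h3
    rw [Finset.sum_eq_single e] at h3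
    · simpa using h3
    · intro b _ hb
      have hne : ¬ ((e : ℕ) = (b : ℕ)) := fun h => hb (Fin.ext h.symm)
      simp [hne]
    · intro h
      exact absurd (Finset.mem_univ e) h
  · apply eq_zero_of_many_central_roots _ K ?_ t ht ?_
    · have hle : (∑ i, (P i).map (algebraMap F D) * Y ^ (i : ℕ)).natDegree ≤ N + δ := by
        apply natDegree_sum_le_of_forall_le
        intro i _
        refine natDegree_mul_le.trans ?_
        have h4 : ((P i).map (algebraMap F D)).natDegree ≤ N :=
          natDegree_map_le.trans (hPdeg i)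
        have h5 : (Y ^ (i : ℕ)).natDegree ≤ δ := by
          refine natDegree_pow_le.trans ?_
          rw [hδ]
          exact Nat.mul_le_mul_right _ (by omega)
        omega
      omega
    · intro k
      rw [map_sum, ← hc k]
      refine Finset.sum_congr rfl fun i _ => ?_
      rw [map_mul, map_pow, evalCentral_map, hPeval, Algebra.smul_def]

theorem reduce_relation {F D : Type*} [Field F] [DivisionRing D] [Algebra F D] (g : F[X])
    (hg : 0 < g.natDegree) (Y : D[X]) (n : ℕ) :
    ∀ (m : ℕ) (c : Fin (n + 1) → F[X]), c ≠ 0 → ∑ i, (c i).natDegree = m →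
      ∑ i, (c i).map (algebraMap F D) * Y ^ (i : ℕ) = 0 →
      ∃ c' : Fin (n + 1) → F[X], (∃ i, ¬ g ∣ c' i) ∧
        ∑ i, (c' i).map (algebraMap F D) * Y ^ (i : ℕ) = 0 := by
  intro m
  induction m using Nat.strong_induction_on with
  | _ m ih =>
    intro c hc hm hrel
    by_cases hdiv : ∃ i, ¬ g ∣ c i
    · exact ⟨c, hdiv, hrel⟩
    · push Not at hdiv
      choose c' hc' using hdiv
      have hg0 : g ≠ 0 := by
        intro h
        rw [h] at hg
        simp at hg
      have hc'0 : c' ≠ 0 := by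
        intro h
        apply hc
        funext i
        rw [hc' i, h]
        simp
      have hrel' : ∑ i, (c' i).map (algebraMap F D) * Y ^ (i : ℕ) = 0 := by
        have h1 : g.map (algebraMap F D) * ∑ i, (c' i).map (algebraMap F D) * Y ^ (i : ℕ) = 0 := by
          rw [Finset.mul_sum, ← hrel]
          refine Finset.sum_congr rfl fun i _ => ?_
          rw [hc' i, Polynomial.map_mul, mul_assoc]
        rcases mul_eq_zero.mp h1 with h | h
        · exact absurd ((Polynomial.map_eq_zero_iff (algebraMap F D).injective).mp h) hg0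
        · exact h
      have hlt : ∑ i, (c' i).natDegree < m := by
        rw [← hm]
        obtain ⟨i₀, hi₀⟩ : ∃ i, c' i ≠ 0 := by
          by_contra hall
          push Not at hall
          exact hc'0 (funext hall)
        apply Finset.sum_lt_sum
        · intro i _
          by_cases h0 : c' i = 0
          · rw [h0]
            simp
          · rw [hc' i, natDegree_mul hg0 h0]
            omega
        · refine ⟨i₀, Finset.mem_univ _, ?_⟩
          rw [hc' i₀, natDegree_mul hg0 hi₀]
          omega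
      exact ih _ hlt c' hc'0 rfl hrel'

attribute [local instance] Algebra.TensorProduct.rightAlgebra

noncomputable def evalTensor {F D E : Type*} [Field F] [Ring D] [Algebra F D] [Field E]
    [Algebra F E] (θ : E) : D[X] →+* D ⊗[F] E :=
  Polynomial.eval₂RingHom' (Algebra.TensorProduct.includeLeftRingHom : D →+* D ⊗[F] E)
    ((1 : D) ⊗ₜ[F] θ) (fun d => by
      show (d ⊗ₜ[F] (1 : E)) * ((1 : D) ⊗ₜ[F] θ) = ((1 : D) ⊗ₜ[F] θ) * (d ⊗ₜ[F] (1 : E))
      rw [Algebra.TensorProduct.tmul_mul_tmul, Algebra.TensorProduct.tmul_mul_tmul, mul_one,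
        one_mul, mul_one, one_mul])

theorem evalTensor_map {F D E : Type*} [Field F] [Ring D] [Algebra F D] [Field E]
    [Algebra F E] (θ : E) (c : F[X]) :
    evalTensor θ (c.map (algebraMap F D)) = (1 : D) ⊗ₜ[F] (aeval θ c) := by
  have h1 : evalTensor θ (c.map (algebraMap F D))
      = (c.map (algebraMap F D)).eval₂
        (Algebra.TensorProduct.includeLeftRingHom : D →+* D ⊗[F] E) ((1 : D) ⊗ₜ[F] θ) := rfl
  have h2 : (Algebra.TensorProduct.includeLeftRingHom : D →+* D ⊗[F] E).comp (algebraMap F D)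
      = algebraMap F (D ⊗[F] E) := by
    ext r
    simp [Algebra.TensorProduct.algebraMap_apply]
  have h3 : aeval ((Algebra.TensorProduct.includeRight : E →ₐ[F] D ⊗[F] E) θ) c
      = (Algebra.TensorProduct.includeRight : E →ₐ[F] D ⊗[F] E) (aeval θ c) :=
    aeval_algHom_apply _ _ _
  rw [h1, eval₂_map, h2]
  exact h3

theorem evalTensor_C {F D E : Type*} [Field F] [Ring D] [Algebra F D] [Field E]
    [Algebra F E] (θ : E) (d : D) : evalTensor θ (C d) = d ⊗ₜ[F] (1 : E) := by
  have h1 : evalTensor θ (C d)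
      = (C d).eval₂ (Algebra.TensorProduct.includeLeftRingHom : D →+* D ⊗[F] E)
        ((1 : D) ⊗ₜ[F] θ) := rfl
  rw [h1, eval₂_C]
  rfl

theorem algebraic_of_relation {F D E : Type u} [Field F] [DivisionRing D] [Algebra F D]
    [Field E] [Algebra F E] [FiniteDimensional F E] (θ : E) (Y : D[X]) (n : ℕ)
    (c : Fin (n + 1) → F[X]) (hc : c ≠ 0)
    (hrel : ∑ i, (c i).map (algebraMap F D) * Y ^ (i : ℕ) = 0) :
    ∃ q : E[X], q ≠ 0 ∧ q.natDegree ≤ n ∧ aeval (evalTensor (F := F) θ Y) q = 0 := by
  classical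
  have hθ : IsIntegral F θ := IsIntegral.of_finite F θ
  obtain ⟨c', ⟨i₀, hi₀⟩, hrel'⟩ := reduce_relation (minpoly F θ) (minpoly.natDegree_pos hθ) Y n
    _ c hc rfl hrel
  have hne : aeval θ (c' i₀) ≠ 0 := fun h => hi₀ (minpoly.dvd_iff.mpr h)
  refine ⟨∑ i : Fin (n + 1), C (aeval θ (c' i)) * X ^ (i : ℕ), ?_, ?_, ?_⟩
  · intro h0
    have h3 := congrArg (fun p => p.coeff (i₀ : ℕ)) h0
    simp only [finsetSum_coeff, coeff_C_mul, coeff_X_pow, coeff_zero] at h3
    rw [Finset.sum_eq_single i₀] at h3
    · apply hne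
      simpa using h3
    · intro b _ hb
      have hne' : ¬ ((i₀ : ℕ) = (b : ℕ)) := fun h => hb (Fin.ext h.symm)
      simp [hne']
    · intro h
      exact absurd (Finset.mem_univ i₀) h
  · apply natDegree_sum_le_of_forall_le
    intro i _
    exact (natDegree_C_mul_X_pow_le _ _).trans (by omega)
  · have h4 := congrArg (evalTensor (F := F) (D := D) θ) hrel'
    rw [map_sum, map_zero] at h4
    rw [map_sum, ← h4]
    refine Finset.sum_congr rfl fun i _ => ?_
    rw [map_mul, map_pow, aeval_X, aeval_C, map_mul, map_pow, evalTensor_map]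
    rfl

theorem exists_poly_rep {F D E : Type u} [Field F] [Ring D] [Algebra F D] [Field E]
    [Algebra F E] (θ : E) (hθ : Algebra.adjoin F {θ} = ⊤) (x : D ⊗[F] E) :
    ∃ (S : Finset D) (Y : D[X]), evalTensor θ Y = x ∧
      ∀ t : F, evalCentral t Y ∈ Submodule.span F (S : Set D) := by
  classical
  induction x using TensorProduct.induction_on with
  | zero => exact ⟨∅, 0, map_zero _, fun t => by rw [map_zero]; exact Submodule.zero_mem _⟩
  | tmul d e =>
    have he : e ∈ Algebra.adjoin F {θ} := by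
      rw [hθ]
      exact Algebra.mem_top
    rw [Algebra.adjoin_singleton_eq_range_aeval] at he
    obtain ⟨q, hq⟩ := he
    refine ⟨{d}, C d * q.map (algebraMap F D), ?_, fun t => ?_⟩
    · rw [map_mul, evalTensor_C, evalTensor_map, Algebra.TensorProduct.tmul_mul_tmul, mul_one,
        one_mul]
      exact congrArg (fun z => d ⊗ₜ[F] z) hq
    · rw [map_mul, evalCentral_map]
      have h1 : evalCentral t (C d) = d := by
        have h2 : evalCentral t (C d) = (C d).eval₂ (RingHom.id D) (algebraMap F D t) := rfl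
        rw [h2, eval₂_C, RingHom.id_apply]
      rw [h1, ← Algebra.commutes, ← Algebra.smul_def]
      refine Submodule.smul_mem _ _ (Submodule.subset_span ?_)
      simp
  | add x y hx hy =>
    obtain ⟨S₁, Y₁, h1, h1'⟩ := hx
    obtain ⟨S₂, Y₂, h2, h2'⟩ := hy
    refine ⟨S₁ ∪ S₂, Y₁ + Y₂, by rw [map_add, h1, h2], fun t => ?_⟩
    rw [map_add]
    refine Submodule.add_mem _ ?_ ?_
    · exact Submodule.span_mono (by simp) (h1' t)
    · exact Submodule.span_mono (by simp) (h2' t)

theorem lbd_tensor_algebraic {F D E : Type u} [Field F] [Infinite F] [DivisionRing D]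
    [Algebra F D] [Field E] [Algebra F E] [FiniteDimensional F E] [Algebra.IsSeparable F E]
    (hLBD : ∀ S : Finset D, ∃ n : ℕ, ∀ v ∈ Submodule.span F (S : Set D),
      ∃ p : F[X], p ≠ 0 ∧ p.natDegree ≤ n ∧ aeval v p = 0)
    (w : D ⊗[F] E) : IsAlgebraic F w := by
  obtain ⟨θ, hθ⟩ := Field.exists_primitive_element F E
  have hθ' : Algebra.adjoin F {θ} = ⊤ := by
    have h1 := IntermediateField.adjoin_simple_toSubalgebra_of_isAlgebraic
      (IsAlgebraic.of_finite F θ)
    rw [hθ] at h1
    rw [← h1]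
    rfl
  obtain ⟨S, Y, hY, hS⟩ := exists_poly_rep (D := D) θ hθ' w
  obtain ⟨n, hn⟩ := hLBD S
  obtain ⟨c, hc0, -, hrel⟩ := generic_relation Y n (fun t => hn _ (hS t))
  obtain ⟨q, hq0, -, hq⟩ := algebraic_of_relation θ Y n c hc0 hrel
  rw [hY] at hq
  have hE : IsAlgebraic E w := ⟨q, hq0, hq⟩
  exact (isIntegral_trans (R := F) (A := E) w hE.isIntegral).isAlgebraic

end Vale.Agent.Lib.P199
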