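import Mathlib
import Vale.Agent.Lib.P199.Main
import Vale.Agent.Lib.P199.LBD

namespace Vale.Agent.Lib.P199

open TensorProduct Polynomial

universe u

attribute [local instance] Algebra.TensorProduct.rightAlgebra

theorem lbd_center (F D : Type u) [Field F] [Infinite F] [DivisionRing D] [Algebra F D]
    [Algebra.IsCentral F D]
    (hBr : ∀ (B : Type u) [DivisionRing B] [Algebra F B] [FiniteDimensional F B],
      ∀ x y : B, x * y = y * x)
    (hLBD : ∀ S : Finset D, ∃ n : ℕ, ∀ v ∈ Submodule.span F (S : Set D),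
      ∃ p : F[X], p ≠ 0 ∧ p.natDegree ≤ n ∧ aeval v p = 0) :
    Function.Surjective (algebraMap F D) := by
  have halg : Algebra.IsAlgebraic F D := by
    constructor
    intro a
    obtain ⟨n, hn⟩ := hLBD {a}
    obtain ⟨p, hp0, -, hp⟩ := hn a (Submodule.subset_span (by simp))
    exact ⟨p, hp0, hp⟩
  exact center_of_tensor_algebraic F D hBr (fun E _ _ _ _ w => lbd_tensor_algebraic hLBD w)

theorem dim_of_split {F M D : Type u} [Field F] [Field M] [Algebra F M] [FiniteDimensional F M]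
    [DivisionRing D] [Algebra F D] {n : ℕ} [NeZero n] {Δ : Type u} [DivisionRing Δ]
    [Algebra M Δ] (e : (D ⊗[F] M) ≃ₐ[M] Matrix (Fin n) (Fin n) Δ)
    (hsurj : Function.Surjective (algebraMap M Δ)) :
    FiniteDimensional F D ∧ Module.finrank F D = n ^ 2 := by
  have hΔfin : Module.Finite M Δ := Module.Finite.of_surjective (Algebra.linearMap M Δ) hsurj
  have hTfinM : Module.Finite M (D ⊗[F] M) :=
    Module.Finite.equiv e.symm.toLinearEquiv
  have hTfinF : Module.Finite F (D ⊗[F] M) := Module.Finite.trans M (D ⊗[F] M)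
  have hDfin : FiniteDimensional F D :=
    FiniteDimensional.of_injective
      (Algebra.TensorProduct.includeLeft : D →ₐ[F] D ⊗[F] M).toLinearMap
      (RingHom.injective (Algebra.TensorProduct.includeLeft : D →ₐ[F] D ⊗[F] M).toRingHom)
  refine ⟨hDfin, ?_⟩
  have h1 : Module.finrank F (D ⊗[F] M) = Module.finrank F D * Module.finrank F M :=
    Module.finrank_tensorProduct
  have h2 : Module.finrank F M * Module.finrank M (D ⊗[F] M) = Module.finrank F (D ⊗[F] M) :=
    Module.finrank_mul_finrank F M (D ⊗[F] M)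
  have h3 : Module.finrank M (D ⊗[F] M) = Module.finrank M (Matrix (Fin n) (Fin n) Δ) :=
    e.toLinearEquiv.finrank_eq
  have h4 : Module.finrank M Δ = 1 := by
    have hbij : Function.Bijective (Algebra.linearMap M Δ) :=
      ⟨(algebraMap M Δ).injective, hsurj⟩
    rw [← (LinearEquiv.ofBijective (Algebra.linearMap M Δ) hbij).finrank_eq, Module.finrank_self]
  rw [Module.finrank_matrix, h4, Fintype.card_fin, mul_one] at h3
  have hpos : 0 < Module.finrank F M := Module.finrank_pos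
  rw [h1, h3] at h2
  have h5 : Module.finrank F M * (n * n) = Module.finrank F M * Module.finrank F D := by
    rw [h2, mul_comm]
  have h6 := Nat.eq_of_mul_eq_mul_left hpos h5
  rw [pow_two, h6]

theorem span_rep {F D M : Type u} [Field F] [Ring D] [Algebra F D] [Field M]
    [Algebra F M] (θ : M) (hθ : Algebra.adjoin F {θ} = ⊤) (S : Finset D) (v : D ⊗[F] M)
    (hv : v ∈ Submodule.span M ((fun d : D => d ⊗ₜ[F] (1 : M)) '' (S : Set D))) :
    ∃ Y : D[X], evalTensor θ Y = v ∧ ∀ t : F, evalCentral t Y ∈ Submodule.span F (S : Set D) := by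
  induction hv using Submodule.span_induction with
  | mem x hx =>
    obtain ⟨d, hd, rfl⟩ := hx
    refine ⟨C d, evalTensor_C θ d, fun t => ?_⟩
    have h2 : evalCentral t (C d) = (C d).eval₂ (RingHom.id D) (algebraMap F D t) := rfl
    rw [h2, eval₂_C, RingHom.id_apply]
    exact Submodule.subset_span hd
  | zero => exact ⟨0, map_zero _, fun t => by rw [map_zero]; exact Submodule.zero_mem _⟩
  | add x y _ _ hx hy =>
    obtain ⟨Y₁, h1, h1'⟩ := hx
    obtain ⟨Y₂, h2, h2'⟩ := hy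
    refine ⟨Y₁ + Y₂, by rw [map_add, h1, h2], fun t => ?_⟩
    rw [map_add]
    exact Submodule.add_mem _ (h1' t) (h2' t)
  | smul m x _ hx =>
    obtain ⟨Y, h1, h1'⟩ := hx
    have hm : m ∈ Algebra.adjoin F {θ} := by
      rw [hθ]
      exact Algebra.mem_top
    rw [Algebra.adjoin_singleton_eq_range_aeval] at hm
    obtain ⟨q, hq⟩ := hm
    refine ⟨q.map (algebraMap F D) * Y, ?_, fun t => ?_⟩
    · rw [map_mul, evalTensor_map, h1, Algebra.smul_def]
      exact congrArg (fun z => ((1 : D) ⊗ₜ[F] z) * x) hq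
    · rw [map_mul, evalCentral_map, ← Algebra.smul_def]
      exact Submodule.smul_mem _ _ (h1' t)

theorem mem_span_tmul_one {F D M : Type u} [Field F] [Ring D] [Algebra F D] [Field M]
    [Algebra F M] (x : D ⊗[F] M) :
    ∃ S : Finset D, x ∈ Submodule.span M ((fun d : D => d ⊗ₜ[F] (1 : M)) '' (S : Set D)) := by
  classical
  induction x using TensorProduct.induction_on with
  | zero => exact ⟨∅, Submodule.zero_mem _⟩
  | tmul d m =>
    refine ⟨{d}, ?_⟩
    have h1 : d ⊗ₜ[F] m = m • (d ⊗ₜ[F] (1 : M)) := by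
      rw [Algebra.smul_def]
      show d ⊗ₜ[F] m = ((1 : D) ⊗ₜ[F] m) * (d ⊗ₜ[F] (1 : M))
      rw [Algebra.TensorProduct.tmul_mul_tmul, one_mul, mul_one]
    rw [h1]
    exact Submodule.smul_mem _ _ (Submodule.subset_span ⟨d, by simp, rfl⟩)
  | add x y hx hy =>
    obtain ⟨S₁, h1⟩ := hx
    obtain ⟨S₂, h2⟩ := hy
    refine ⟨S₁ ∪ S₂, Submodule.add_mem _ ?_ ?_⟩
    · exact Submodule.span_mono (Set.image_mono (by simp)) h1
    · exact Submodule.span_mono (Set.image_mono (by simp)) h2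

theorem lbd_tensor {F D M : Type u} [Field F] [Infinite F] [DivisionRing D] [Algebra F D]
    [Field M] [Algebra F M] [FiniteDimensional F M] [Algebra.IsSeparable F M]
    (hLBD : ∀ S : Finset D, ∃ n : ℕ, ∀ v ∈ Submodule.span F (S : Set D),
      ∃ p : F[X], p ≠ 0 ∧ p.natDegree ≤ n ∧ aeval v p = 0)
    (S' : Finset (D ⊗[F] M)) :
    ∃ n : ℕ, ∀ v ∈ Submodule.span M (S' : Set (D ⊗[F] M)),
      ∃ q : M[X], q ≠ 0 ∧ q.natDegree ≤ n ∧ aeval v q = 0 := by
  classical
  obtain ⟨θ, hθ⟩ := Field.exists_primitive_element F M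
  have hθ' : Algebra.adjoin F {θ} = ⊤ := by
    have h1 := IntermediateField.adjoin_simple_toSubalgebra_of_isAlgebraic
      (IsAlgebraic.of_finite F θ)
    rw [hθ] at h1
    rw [← h1]
    rfl
  choose T hT using fun x : D ⊗[F] M => mem_span_tmul_one (F := F) (D := D) (M := M) x
  obtain ⟨n, hn⟩ := hLBD (S'.biUnion T)
  refine ⟨n, fun v hv => ?_⟩
  have hle : Submodule.span M (S' : Set (D ⊗[F] M))
      ≤ Submodule.span M ((fun d : D => d ⊗ₜ[F] (1 : M)) '' ((S'.biUnion T : Finset D) : Set D)) := by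
    rw [Submodule.span_le]
    intro x hx
    refine Submodule.span_mono (Set.image_mono ?_) (hT x)
    intro d hd
    exact Finset.mem_biUnion.mpr ⟨x, hx, hd⟩
  obtain ⟨Y, hY, hS⟩ := span_rep θ hθ' _ v (hle hv)
  obtain ⟨c, hc0, -, hrel⟩ := generic_relation Y n (fun t => hn _ (hS t))
  obtain ⟨q, hq0, hqn, hq⟩ := algebraic_of_relation θ Y n c hc0 hrel
  rw [hY] at hq
  exact ⟨q, hq0, hqn, hq⟩

theorem lbd_of_equiv {F D M : Type u} [Field F] [DivisionRing D] [Algebra F D]
    [Field M] [Algebra F M] {n : ℕ} [NeZero n] {Δ : Type u} [DivisionRing Δ] [Algebra M Δ]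
    (e : (D ⊗[F] M) ≃ₐ[M] Matrix (Fin n) (Fin n) Δ)
    (h : ∀ S' : Finset (D ⊗[F] M), ∃ k : ℕ, ∀ v ∈ Submodule.span M (S' : Set (D ⊗[F] M)),
      ∃ q : M[X], q ≠ 0 ∧ q.natDegree ≤ k ∧ aeval v q = 0)
    (S : Finset Δ) :
    ∃ k : ℕ, ∀ v ∈ Submodule.span M (S : Set Δ),
      ∃ q : M[X], q ≠ 0 ∧ q.natDegree ≤ k ∧ aeval v q = 0 := by
  classical
  let φ : Δ →ₐ[M] D ⊗[F] M :=
    (e.symm : Matrix (Fin n) (Fin n) Δ →ₐ[M] D ⊗[F] M).comp (Matrix.scalarAlgHom (Fin n) M)
  have hφ : Function.Injective φ := by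
    intro a b hab
    have h1 : Matrix.scalar (Fin n) a = Matrix.scalar (Fin n) b := e.symm.injective hab
    exact Matrix.scalar_inj.mp h1
  obtain ⟨k, hk⟩ := h (S.image φ)
  refine ⟨k, fun v hv => ?_⟩
  have hv' : φ v ∈ Submodule.span M ((S.image φ : Finset (D ⊗[F] M)) : Set (D ⊗[F] M)) := by
    rw [Finset.coe_image]
    exact Submodule.apply_mem_span_image_of_mem_span φ.toLinearMap hv
  obtain ⟨q, hq0, hqk, hq⟩ := hk _ hv'
  refine ⟨q, hq0, hqk, hφ ?_⟩
  rw [map_zero, ← aeval_algHom_apply]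
  exact hq

theorem lbd_split (F M D : Type u) [Field F] [Infinite F] [Field M] [Algebra F M]
    [FiniteDimensional F M] [Algebra.IsSeparable F M] [DivisionRing D] [Algebra F D]
    [Algebra.IsCentral F D]
    (hBr : ∀ (B : Type u) [DivisionRing B] [Algebra M B] [FiniteDimensional M B],
      ∀ x y : B, x * y = y * x)
    (hLBD : ∀ S : Finset D, ∃ n : ℕ, ∀ v ∈ Submodule.span F (S : Set D),
      ∃ p : F[X], p ≠ 0 ∧ p.natDegree ≤ n ∧ aeval v p = 0) :
    FiniteDimensional F D ∧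
      ∃ n : ℕ, n ∣ Module.finrank F M ∧ Module.finrank F D = n ^ 2 := by
  obtain ⟨n, instn, Δ, instΔ, instAlgΔ, ⟨e⟩, hn⟩ := wedderburn_step F D M
  have hcent : Algebra.IsCentral M Δ := central_of_equiv e
  have hinf : Infinite M := Infinite.of_injective _ (algebraMap F M).injective
  have hsurj : Function.Surjective (algebraMap M Δ) :=
    lbd_center M Δ hBr (lbd_of_equiv e (lbd_tensor hLBD))
  obtain ⟨h1, h2⟩ := dim_of_split e hsurj
  exact ⟨h1, n, hn, h2⟩

end Vale.Agent.Lib.P199
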